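import Crest.Agent.N228.J.JC
import Crest.Agent.N228.Gr.Neck
import Crest.Agent.N222.F.Bump
import Crest.Agent.N228.Gr.Tri
import Crest.Agent.N228.Gr.Ims
import Crest.Agent.N228.W.All
import Crest.Agent.N228.T.Defs
import Crest.Agent.N228.G.Basic
import Crest.Agent.N228.O.Defs
import Crest.Agent.N228.O.Same
import Crest.Agent.N228.O.Pull
import Crest.Agent.N222.A.Defs
import Crest.Agent.N222.A.Basic
import Crest.Agent.N228.O.Net

-- ▼ part N228/J/Path
section

/-!
# Row 228, solver layer (helper41): jointly smooth paths through a jet-continuous family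
-/

set_option autoImplicit false
set_option linter.unusedSectionVars false
open Set Filter Topology Function Metric
open scoped ContDiff
open Crest.Agent.N222

noncomputable section

namespace Crest.Agent.N228.J

variable {d : ℕ} {X : Type} [TopologicalSpace X] {F : Type} [NormedAddCommGroup F]
  [NormedSpace ℝ F] {A : J.Atl d X} {U : Set X}

/-- the segment family; the parameter is `(s, s₁, s₂, λ)` -/
def seg (u : ℝ → X → F) (z : ℝ × ℝ × ℝ × ℝ) (p : X) : F :=
  (1 - z.2.2.2) • u z.2.1 p + z.2.2.2 • u z.2.2.1 p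

theorem seg_diag (u : ℝ → X → F) (s t l : ℝ) : seg u (s, t, t, l) = u t := by
  funext p
  simp only [seg, ← add_smul, sub_add_cancel, one_smul]

theorem JC.seg {u : ℝ → X → F} (hu : JC A U u) : JC A U (seg u) :=
  ((JC.consts hu.1 (by fun_prop)).smul (hu.reparam (by fun_prop))).add
    ((JC.consts hu.1 (by fun_prop)).smul (hu.reparam (by fun_prop)))



/-- short segments -/
def Near (δ : ℝ) (z : ℝ × ℝ × ℝ × ℝ) : Prop :=
  z.1 ∈ Icc (0 : ℝ) 1 ∧ z.2.1 ∈ Icc (0 : ℝ) 1 ∧ z.2.2.1 ∈ Icc (0 : ℝ) 1 ∧ z.2.2.2 ∈ Icc (0 : ℝ) 1 ∧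
    |z.2.1 - z.1| ≤ δ ∧ |z.2.2.1 - z.1| ≤ δ

/-- a property that holds near the diagonal holds for all short segments -/
theorem exists_near {R : ℝ × ℝ × ℝ × ℝ → Prop}
    (h : ∀ s ∈ Icc (0 : ℝ) 1, ∀ l ∈ Icc (0 : ℝ) 1, ∀ᶠ z in 𝓝 (s, s, s, l), R z) :
    ∃ δ > 0, ∀ z, Near δ z → R z := by
  have hK : IsCompact ((fun q : ℝ × ℝ => (q.1, q.1, q.1, q.2)) '' (Icc (0 : ℝ) 1 ×ˢ Icc (0 : ℝ) 1)) :=
    (isCompact_Icc.prod isCompact_Icc).image (by fun_prop)
  obtain ⟨δ, hδ, H⟩ := hK.exists_cthickening_subset_open isOpen_interior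
    (t := interior {z | R z}) (by
      rintro _ ⟨q, hq, rfl⟩
      exact mem_interior_iff_mem_nhds.2 (h q.1 hq.1 q.2 hq.2))
  refine ⟨δ, hδ, fun z hz => interior_subset (H ?_)⟩
  refine mem_cthickening_of_dist_le z (z.1, z.1, z.1, z.2.2.2) δ _
    ⟨(z.1, z.2.2.2), ⟨hz.1, hz.2.2.2.1⟩, rfl⟩ ?_
  simp only [Prod.dist_eq, dist_self, Real.dist_eq, max_le_iff]
  exact ⟨hδ.le, hz.2.2.2.2.1, hz.2.2.2.2.2, hδ.le⟩

theorem path_aux {G : Type} [AddCommGroup G] [Module ℝ G] (n : ℕ) (w : ℕ → G) (t : ℝ) (h0 : 0 ≤ t) (hn : t ≤ n + 1) :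
    ∃ (i : ℕ) (l : ℝ), i ≤ n ∧ (i : ℝ) ≤ t ∧ t ≤ i + 1 ∧ l ∈ Icc (0 : ℝ) 1 ∧
      w 0 + ∑ j ∈ Finset.range (n + 1), Real.smoothTransition (t - j) • (w (j + 1) - w j)
        = (1 - l) • w i + l • w (i + 1) := by
  induction n with
  | zero =>
    refine ⟨0, Real.smoothTransition t, le_rfl, by simpa using h0, by simpa using hn,
      ⟨Real.smoothTransition.nonneg _, Real.smoothTransition.le_one _⟩, ?_⟩
    simp only [zero_add, Finset.range_one, Finset.sum_singleton, Nat.cast_zero, sub_zero]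
    module
  | succ n ih =>
    rcases le_total t (n + 1) with h | h
    · obtain ⟨i, l, h1, h2, h3, h4, h5⟩ := ih h
      refine ⟨i, l, h1.trans n.le_succ, h2, h3, h4, ?_⟩
      rw [Finset.sum_range_succ, Real.smoothTransition.zero_of_nonpos (by push_cast; linarith),
        zero_smul, add_zero, h5]
    · refine ⟨n + 1, Real.smoothTransition (t - (n + 1 : ℕ)), le_rfl, by push_cast; exact h, hn,
        ⟨Real.smoothTransition.nonneg _, Real.smoothTransition.le_one _⟩, ?_⟩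
      have e : ∑ j ∈ Finset.range (n + 1), Real.smoothTransition (t - j) • (w (j + 1) - w j)
          = w (n + 1) - w 0 := by
        rw [← Finset.sum_range_sub w]
        refine Finset.sum_congr rfl fun j hj => ?_
        have : (j : ℝ) ≤ n := by exact_mod_cast Nat.lt_succ_iff.1 (Finset.mem_range.1 hj)
        rw [Real.smoothTransition.one_of_one_le (by linarith), one_smul]
      rw [Finset.sum_range_succ, e]
      module

/-- **PATH**: a jointly smooth path made of short segments -/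
theorem exists_path {ch : X → OpenPartialHomeomorph X (E (Fin d))} {u : ℝ → X → F}
    (hu : ∀ s, SmA ch (u s)) {δ : ℝ} (hδ : 0 < δ) : ∃ v : ℝ → X → F, N222.A.SmJ ch univ v ∧
      (∀ s ≤ 0, v s = u 0) ∧ (∀ s, 1 ≤ s → v s = u 1) ∧
      ∀ s ∈ Icc (0 : ℝ) 1, ∃ z, Near δ z ∧ z.1 = s ∧ v s = seg u z := by
  obtain ⟨n, hn⟩ := exists_nat_one_div_lt hδ
  have h1 : (0 : ℝ) < n + 1 := by positivity
  refine ⟨fun s p => u 0 p + ∑ j ∈ Finset.range (n + 1), Real.smoothTransition ((n + 1) * s - j) •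
    (u ((j + 1 : ℕ) / (n + 1)) p - u (j / (n + 1)) p), ?_, fun s hs => ?_, fun s hs => ?_,
    fun s hs => ?_⟩
  · refine (N222.A.SmJ.of_smA (hu 0)).add (N222.A.SmJ.sum _ fun j _ => N222.A.SmJ.smul
      (N222.A.SmJ.param ?_) ((N222.A.SmJ.of_smA (hu _)).sub (N222.A.SmJ.of_smA (hu _))))
    exact (Real.smoothTransition.contDiff.comp (by fun_prop)).contDiffOn
  · funext p
    beta_reduce
    rw [Finset.sum_eq_zero, add_zero]
    intro j _
    rw [Real.smoothTransition.zero_of_nonpos, zero_smul]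
    nlinarith [(Nat.cast_nonneg j : (0 : ℝ) ≤ j)]
  · funext p
    have e := Finset.sum_range_sub (fun j : ℕ => u (j / (n + 1)) p) (n + 1)
    beta_reduce
    rw [Finset.sum_congr rfl (g := fun j : ℕ => u ((j + 1 : ℕ) / (n + 1)) p - u (j / (n + 1)) p), e]
    · simp [div_self h1.ne']
    · intro j hj
      have : (j : ℝ) ≤ n := by exact_mod_cast Nat.lt_succ_iff.1 (Finset.mem_range.1 hj)
      rw [Real.smoothTransition.one_of_one_le (by nlinarith), one_smul]
  · obtain ⟨i, l, a1, a2, a3, a4, a5⟩ := path_aux n (fun j : ℕ => u (j / (n + 1))) ((n + 1) * s)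
      (mul_nonneg h1.le hs.1) (mul_le_of_le_one_right h1.le hs.2)
    have a6 : (i : ℝ) ≤ n := by exact_mod_cast a1
    have a7 : (0 : ℝ) ≤ i := Nat.cast_nonneg i
    have a8 : 1 ≤ δ * (n + 1) := by rw [div_lt_iff₀ h1] at hn; exact hn.le
    refine ⟨(s, i / (n + 1), (i + 1 : ℕ) / (n + 1), l), ⟨hs, ⟨by positivity, ?_⟩,
      ⟨by positivity, ?_⟩, a4, ?_, ?_⟩, rfl, ?_⟩
    · exact (div_le_one h1).2 (by linarith)
    · exact (div_le_one h1).2 (by push_cast; linarith)
    · rw [abs_le, le_sub_iff_add_le, sub_le_iff_le_add, le_div_iff₀ h1, div_le_iff₀ h1]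
      constructor <;> nlinarith
    · rw [abs_le, le_sub_iff_add_le, sub_le_iff_le_add, le_div_iff₀ h1, div_le_iff₀ h1]
      push_cast
      constructor <;> nlinarith
    · funext p
      have := congrFun a5 p
      simp only [Pi.add_apply, Finset.sum_apply, Pi.smul_apply, Pi.sub_apply, Nat.cast_zero,
        zero_div] at this
      exact this


end Crest.Agent.N228.J

end
end

-- ▼ part N228/Gr/Ext
section

/-!
# Row 228, graft: extension of families from the slice, families of weights (helper90)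
-/

set_option autoImplicit false
set_option linter.unusedSectionVars false
open Set Filter Topology Function Metric
open scoped ContDiff
open Crest.Agent.N222 Crest.Agent.N222.A

noncomputable section

namespace Crest.Agent.N228.Gr

variable {d m : ℕ} {ι κ : Type} [Fintype ι] [Fintype κ] {X Y : Type} [TopologicalSpace X]
  [TopologicalSpace Y] {P W : Type} [NormedAddCommGroup P] [NormedSpace ℝ P]
  [NormedAddCommGroup W] [NormedSpace ℝ W]

/-- cutting off a locally smooth family -/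
theorem smJ_cut {M : Imm d ι X} {χ : X → ℝ} (hχ : M.Sm χ) {g : P → X → W}
    (h : ∀ p ∈ tsupport χ, ∀ s, ∃ e : OpenPartialHomeomorph X (E (Fin d)), IsChart M.x e ∧
      p ∈ e.source ∧ ContDiffAt ℝ ∞ (fun r : E (Fin d) × P => g r.2 (e.symm r.1)) (e p, s)) :
    SmJ M.ch univ fun s p => χ p • g s p := by
  refine SmJ.of_charts fun p s _ => ?_
  by_cases hp : p ∈ tsupport χ
  · obtain ⟨e, he, h1, h2⟩ := h p hp s
    exact ⟨e, he, h1, (((hχ.chart he).contDiffAt (e.open_target.mem_nhds (e.map_source h1))).comp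
      (f := Prod.fst) (e p, s) contDiffAt_fst).smul h2⟩
  · refine ⟨M.ch p, M.isChart p, M.mem p, (contDiffAt_const (c := 0)).congr_of_eventuallyEq ?_⟩
    filter_upwards [(continuousAt_fst (p := (M.ch p p, s))).eventually (symm_eventuallyEq (M.mem p)
      (notMem_tsupport_iff_eventuallyEq.1 hp))] with r hr
    rw [show χ ((M.ch p).symm r.1) = 0 from hr, zero_smul]

/-- pull-back along a local isometry -/
theorem smJ_pull {N : Imm d ι X} {M : Imm d κ Y} {j : X → Y} {χ : X → ℝ} (hχ : N.Sm χ)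
    (h : ∀ p ∈ tsupport χ, LI N M j p) {g : P → Y → W} (hg : SmJ M.ch univ g) :
    SmJ N.ch univ fun s p => χ p • g s (j p) :=
  smJ_cut hχ fun p hp s => by
    obtain ⟨L, c, hl⟩ := (h p hp).loc
    exact ⟨N.ch p, N.isChart p, N.mem p, smJ_at hl hg s⟩

/-- **extension** of a family from a hypersurface -/
theorem exists_extJ [T2Space X] [SecondCountableTopology X] {M : Imm (m + 1) ι X} {S U : Set X}
    (hU : IsOpen U) (h : ∀ q ∈ S, ∃ e : OpenPartialHomeomorph X (E (Fin (m + 1))), IsChart M.x e ∧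
      q ∈ e.source ∧ ∀ p ∈ e.source, p ∈ S ↔ e p 0 = 0) {N : Imm m ι S} (hN : ∀ q, N.x q = M.x q)
    {K : Set S} (hK : IsCompact K) (hKU : ∀ q ∈ K, q.1 ∈ U) {f : P → S → W}
    (hf : SmJ N.ch univ f) (h0 : ∀ s, ∀ q ∉ K, f s q = 0) :
    ∃ (f' : P → X → W) (K' : Set X), IsCompact K' ∧ K' ⊆ U ∧ SmJ M.ch univ f' ∧
      (∀ s (q : S), f' s q = f s q) ∧ (∀ s, ∀ p ∉ K', f' s p = 0) ∧
      ∀ s, (∀ q, f s q = 0) → ∀ p, f' s p = 0 := by
  have hx : N.x = fun q : S => M.x q := funext hN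
  have H : ∀ q : S, ∃ (V : Set X) (r : X → S), IsOpen V ∧ q.1 ∈ V ∧ (∀ p : S, p.1 ∈ V → r p = p) ∧
      ∀ p ∈ V, ∀ s, ∃ e : OpenPartialHomeomorph X (E (Fin (m + 1))), IsChart M.x e ∧
        p ∈ e.source ∧
        ContDiffAt ℝ ∞ (fun z : E (Fin (m + 1)) × P => f z.2 (r (e.symm z.1))) (e p, s) := fun q => by
    obtain ⟨e, he, hq, hs⟩ := h q q.2
    obtain ⟨e', he', h1, -, h3, -⟩ := exists_sliceChart he hs q
    rw [← hx] at he'
    refine ⟨e.source ∩ e ⁻¹' (tail0 ⁻¹' e'.target), fun p => e'.symm (tail0 (e p)),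
      e.isOpen_inter_preimage (e'.open_target.preimage contDiff_tail0.continuous), ⟨hq, ?_⟩,
      fun p hp => ?_, fun p hp s => ⟨e, he, hp.1, ?_⟩⟩
    · change tail0 (e q) ∈ e'.target
      rw [← h3]
      exact e'.map_source (h1 ▸ hq)
    · beta_reduce
      rw [← h3, e'.left_inv (h1 ▸ hp.1)]
    · refine (((hf.chart isOpen_univ he').contDiffAt (x := (tail0 (e p), s))
        ((e'.open_target.prod isOpen_univ).mem_nhds ⟨hp.2, mem_univ s⟩)).comp
        (f := fun z : E (Fin (m + 1)) × P => (tail0 z.1, z.2)) (e p, s)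
        ((contDiff_tail0.comp contDiff_fst).prodMk contDiff_snd).contDiffAt).congr_of_eventuallyEq ?_
      filter_upwards [(continuousAt_fst (p := (e p, s))).eventually
        (e.open_target.eventually_mem (e.map_source hp.1))] with y hy
      simp only [comp_apply, e.right_inv hy]
  choose V r h1 h2 h3 h4 using H
  obtain ⟨n, φ, i, h6, -, h7⟩ := M.exists_partition (hK.image continuous_subtype_val)
    (fun q => V q ∩ U) (fun q => (h1 q).inter hU)
    (by rintro _ ⟨q, hq, rfl⟩; exact mem_iUnion.2 ⟨q, h2 q, hKU q hq⟩)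
  refine ⟨fun s p => ∑ k, φ k p • f s (r (i k) p), ⋃ k, tsupport (φ k),
    isCompact_iUnion fun k => (h6 k).1.cs, iUnion_subset fun k p hp => ((h6 k).2.1 hp).2,
    SmJ.sum _ fun k _ => smJ_cut (h6 k).1.sm fun p hp s => h4 _ p ((h6 k).2.1 hp).1 s,
    fun s q => ?_, fun s p hp => Finset.sum_eq_zero fun k _ => ?_,
    fun s hs p => Finset.sum_eq_zero fun k _ => by rw [hs, smul_zero]⟩
  · have h8 : ∀ k, φ k q • f s (r (i k) q) = φ k q • f s q := fun k => by
      by_cases hk : φ k q = 0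
      · rw [hk, zero_smul, zero_smul]
      · rw [h3 _ q ((h6 k).2.1 (subset_tsupport _ hk)).1]
    simp only [h8, ← Finset.sum_smul]
    by_cases hq : q ∈ K
    · rw [h7.self_of_nhdsSet _ ⟨q, hq, rfl⟩, one_smul]
    · rw [h0 s q hq, smul_zero]
  · rw [image_eq_zero_of_notMem_tsupport fun h' => hp (mem_iUnion.2 ⟨k, h'⟩), zero_smul]

/-- **families of weights** -/
theorem exists_famJ {ch : X → OpenPartialHomeomorph X (E (Fin d))} {R : ℝ → (X → W) → Prop}
    (h1 : ∀ s ∈ Icc (0 : ℝ) 1, ∃ F, SmA ch F ∧ ∀ᶠ s' in 𝓝 s, R s' F)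
    (h2 : ∀ s F F' (l : ℝ), SmA ch F → SmA ch F' → l ∈ Icc (0 : ℝ) 1 → R s F → R s F' →
      R s fun p => (1 - l) • F p + l • F' p) :
    ∃ F : ℝ → X → W, SmJ ch univ F ∧ ∀ s ∈ Icc (0 : ℝ) 1, R s (F s) := by
  choose! F hF hR using h1
  obtain ⟨δ, hδ, H⟩ := lebesgue_number_lemma_of_metric (s := Icc (0 : ℝ) 1) isCompact_Icc
    (c := fun s : Icc (0 : ℝ) 1 => interior {s' | R s' (F s)}) (fun _ => isOpen_interior)
    fun s hs => mem_iUnion.2 ⟨⟨s, hs⟩, mem_interior_iff_mem_nhds.2 (hR s hs)⟩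
  have H' : ∀ t : ℝ, ∃ G, SmA ch G ∧ (t ∈ Icc (0 : ℝ) 1 → ∀ s, |t - s| ≤ δ / 2 → R s G) := fun t => by
    by_cases ht : t ∈ Icc (0 : ℝ) 1
    · obtain ⟨i, hi⟩ := H t ht
      exact ⟨F i, hF i i.2, fun _ s hs => interior_subset (s := {s' | R s' (F i)}) (hi (by
        rw [mem_ball, Real.dist_eq, abs_sub_comm]; linarith))⟩
    · exact ⟨fun _ => 0, fun _ => contDiffOn_const, fun h => (ht h).elim⟩
  choose G g1 g2 using H'
  obtain ⟨v, v1, -, -, v2⟩ := J.exists_path g1 (half_pos hδ)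
  refine ⟨v, v1, fun s hs => ?_⟩
  obtain ⟨z, hz, rfl, e⟩ := v2 s hs
  rw [e]
  exact h2 _ _ _ _ (g1 _) (g1 _) hz.2.2.2.1 (g2 _ hz.2.1 _ hz.2.2.2.2.1) (g2 _ hz.2.2.1 _ hz.2.2.2.2.2)

end Crest.Agent.N228.Gr

end
end

-- ▼ part N228/Gr/Smo
section

/-!
# Row 228, graft: a path in the class can be taken jointly smooth, with its weights (helper90)
-/

set_option autoImplicit false
set_option linter.unusedSectionVars false
open Set Filter Topology Function
open scoped ContDiff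
open Crest.Agent.N222 Crest.Agent.N222.A Crest.Agent.N228.G
open Crest.Agent.N228.J (JC Fm)

noncomputable section

namespace Crest.Agent.N228.Gr

variable {d : ℕ} {ι κ C : Type} [Fintype ι] [DecidableEq ι] [Fintype κ] [DecidableEq κ] [Fintype C]
  {X : Type} [TopologicalSpace X] [T2Space X] [SecondCountableTopology X] [MeasurableSpace X]
  [BorelSpace X] {M : Imm d ι X} {A : Set X} {η r : C → ℝ} {μ : ℝ}

theorem EF_seg {F F' : X → ℝ} (hF : M.Sm F) (hF' : M.Sm F') {l : ℝ} (hl : l ∈ Icc (0 : ℝ) 1) (p : X) :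
    (1 - l) * M.pre.EF F p + l * M.pre.EF F' p ≤
      M.pre.EF (fun q => (1 - l) • F q + l • F' q) p := by
  have := EF_concave (M := M) Finset.univ (ρ := ![1 - l, l]) (F := ![F, F'])
    (fun i _ => by fin_cases i; exacts [sub_nonneg.2 hl.2, hl.1]) (by simp)
    (fun i => by fin_cases i; exacts [hF, hF']) p
  simpa only [Fin.sum_univ_two, Matrix.cons_val_zero, Matrix.cons_val_one, smul_eq_mul] using this

/-- the class with a given weight is an open condition -/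
theorem tri_ev {Λ : Type} [TopologicalSpace Λ] {v : Λ → X → (κ → ℝ) × (C → ℝ)}
    (hv : JC M.atl univ v) (hA : IsCompact A) {O : Set (ℝ × (C → ℝ) × (C → ℝ))} (hO : IsOpen O)
    {F : X → ℝ} (hF : M.Sm F) {l0 : Λ}
    (h : ∀ p ∈ A, tri M (fun q => ((v l0 q).1, (v l0 q).2, F q)) p ∈ O) :
    ∀ᶠ l in 𝓝 l0, ∀ p ∈ A, tri M (fun q => ((v l q).1, (v l q).2, F q)) p ∈ O :=
  hA.eventually_forall_of_forall_eventually fun p hp =>
    (tri_cont (hv.fst.prodMk (hv.snd.prodMk (JC.of_sm rfl isOpen_univ hF)))).continuousAt.eventually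
      (hO.mem_nhds (h p hp))

theorem tri_mem {m : ℕ} {y : κ → X → ℝ} {ψ : C → X → ℝ} {F : X → ℝ} {p : X} :
    tri M (fun q => (fun i => y i q, fun b => ψ b q, F q)) p ∈ GS m η r μ ↔
      Good m η r ((M.xt y).pre.EF F p - μ) (ev ψ p) (gr (M.xt y) ψ p) := Iff.rfl

/-- **smoothing** -/
theorem smooth_path (hA : IsCompact A) (hr : ∀ b, 0 ≤ r b) {φ : C → X → ℝ}
    {Q : (C → X → ℝ) → Prop} (h : ExPath M A univ η r μ φ φ Q) :
    ∃ (κ : Type) (_ : Fintype κ) (_ : DecidableEq κ) (D : ℝ → X → DW κ C), SmJ M.ch univ D ∧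
      (∀ q, (D 0 q).1 = 0 ∧ (D 0 q).2.1 = ev φ q) ∧
      (∀ s ∈ Icc (0 : ℝ) 1, (∀ p ∈ A, tri M (D s) p ∈ GS d η r μ) ∧
        ∀ b p, Shr1 (φ b p) ((D s p).2.1 b)) ∧ Q fun b q => (D 1 q).2.1 b := by
  obtain ⟨κ, i1, i2, y, ψ, h, hQ⟩ := h
  have hO := isOpen_GS (m := d) (η := η) hr μ
  have hu : JC M.atl univ fun s q => ((fun i => y s i q, fun b => ψ s b q) : (κ → ℝ) × (C → ℝ)) :=
    (JC.pi isOpen_univ h.jy).prodMk (JC.pi isOpen_univ h.jψ)
  set u : ℝ → X → (κ → ℝ) × (C → ℝ) := fun s q => (fun i => y s i q, fun b => ψ s b q) with hu'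
  have h0 : ∀ s ∈ Icc (0 : ℝ) 1, ∀ l ∈ Icc (0 : ℝ) 1, ∀ᶠ z in 𝓝 (s, s, s, l), ∃ F, M.Sm F ∧ ∀ p ∈ A,
      tri M (fun q => ((J.seg u z q).1, (J.seg u z q).2, F q)) p ∈ GS d η r μ := fun s hs l _ => by
    obtain ⟨F, hF, h1⟩ := h.cls s hs
    refine (tri_ev hu.seg hA hO hF fun p hp => ?_).mono fun z hz => ⟨F, hF, hz⟩
    rw [J.seg_diag]
    exact tri_mem.2 (h1 p hp)
  obtain ⟨δ, hδ, H⟩ := J.exists_near h0
  obtain ⟨v, v1, v2, v3, v4⟩ := J.exists_path (ch := M.ch) (u := u) (fun s => hu.sm rfl s) hδ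
  have hv : JC M.atl univ v := JC.of_smJ v1 isOpen_univ continuous_id fun _ => mem_univ _
  obtain ⟨F, F1, F2⟩ := exists_famJ (ch := M.ch) (R := fun s F => ∀ p ∈ A,
      tri M (fun q => ((v s q).1, (v s q).2, F q)) p ∈ GS d η r μ) (fun s hs => by
    obtain ⟨z, hz, -, e⟩ := v4 s hs
    obtain ⟨F, hF, h1⟩ := H z hz
    rw [← e] at h1
    exact ⟨F, hF, tri_ev hv hA hO hF h1⟩) fun s F F' l hF hF' hl h1 h2 p hp => by
      have a1 := (tri_mem (y := fun i q => (v s q).1 i) (ψ := fun b q => (v s q).2 b)).1 (h1 p hp)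
      have a2 := (tri_mem (y := fun i q => (v s q).1 i) (ψ := fun b q => (v s q).2 b)).1 (h2 p hp)
      refine (tri_mem (y := fun i q => (v s q).1 i) (ψ := fun b q => (v s q).2 b)).2
        (good_conv a1 a2 (sub_nonneg.2 hl.2) hl.1 (by ring) ?_)
      linarith [EF_seg (M := M.xt fun i q => (v s q).1 i) hF hF' hl p]
  refine ⟨κ, i1, i2, fun s q => ((v s q).1, (v s q).2, F s q), ?_, fun q => ?_,
    fun s hs => ⟨F2 s hs, fun b p => ?_⟩, ?_⟩
  · exact (v1.comp contDiff_fst).prodMk ((v1.comp contDiff_snd).prodMk F1)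
  · simp only [v2 0 le_rfl]
    exact ⟨funext fun i => h.y0 i q, funext fun b => congrFun (congrFun h.ψ0 b) q⟩
  · obtain ⟨z, hz, -, e⟩ := v4 s hs
    simp only [e]
    exact shr1_seg (h.shr _ hz.2.1 b p) (h.shr _ hz.2.2.1 b p) hz.2.2.2.1
  · simp only [v3 1 le_rfl]
    exact hQ

end Crest.Agent.N228.Gr

end
end

-- ▼ part N228/Gr/Slc
section

/-!
# Row 228, graft: the path on the slice (helper90)
-/

set_option autoImplicit false
set_option linter.unusedSectionVars false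
open Set Filter Topology Function
open scoped ContDiff
open Crest.Agent.N222 Crest.Agent.N222.A Crest.Agent.N228.G

noncomputable section

namespace Crest.Agent.N228.Gr

variable {m : ℕ} {ι C : Type} [Fintype ι] [DecidableEq ι] [Fintype C] [DecidableEq C]
  {S : Type} [TopologicalSpace S] [T2Space S] [SecondCountableTopology S] [MeasurableSpace S]
  [BorelSpace S] {η r : C → ℝ} {μ δ : ℝ} {ℓ : ℕ → C → ℝ}

theorem smA_pi {d : ℕ} {X κ : Type} [TopologicalSpace X] [Fintype κ]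
    {ch : X → OpenPartialHomeomorph X (E (Fin d))} {f : κ → X → ℝ} (h : ∀ i, SmA ch (f i)) :
    SmA ch fun q i => f i q := fun p => contDiffOn_pi.2 fun i => h i p

/-- the path theorem on a compact part of an open manifold -/
theorem slice_path (hC : CarStmt) (hS : SStmt m) {N : Imm m ι S} (hN : Injective N.x) {V : S → ℝ}
    (hV : Continuous V) (hF : N.Form V) {Z U : Set S} (hZ : IsCompact Z) (hU : IsOpen U)
    (hZU : Z ⊆ U) {ψ : C → S → ℝ} (hψ : ∀ b, N.Sm (ψ b)) (hη : ∀ b, 0 < η b) (hr : ∀ b, 0 ≤ r b)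
    (hμ : 0 ≤ μ) (hδ : 0 < δ) (hL : Led η ℓ Z ψ) (hI : ∀ p ∈ Z, Few m (ev ψ p) ∨ p ∈ interior Z)
    (hG : ∀ p ∈ Z, Good m η (r + ℓ m) (V p - δ - μ) (ev ψ p) (gr N ψ p)) :
    ∃ (κ : Type) (_ : Fintype κ) (_ : DecidableEq κ) (g : ℝ → S → (κ → ℝ) × (C → ℝ))
      (F : ℝ → S → ℝ) (K : Set S), IsCompact K ∧ K ⊆ U ∧ SmJ N.ch univ g ∧ SmJ N.ch univ F ∧
      (∀ q, g 0 q = 0) ∧ (∀ s, ∀ q ∉ K, g s q = 0) ∧ (∀ s, ∀ q ∉ K, F s q = 0) ∧
      (∀ s ∈ Icc (0 : ℝ) 1, (∀ p ∈ Z,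
        tri N (fun q => ((g s q).1, ev ψ q + (g s q).2, F s q)) p ∈ GS m η r μ) ∧
        ∀ b q, Shr1 (ψ b q) (ψ b q + (g s q).2 b)) ∧ ∀ p ∈ Z, Few m (ev ψ p + (g 1 p).2) := by
  obtain ⟨ι', _, _, Y, _, _, _, _, _, N', _, hN', e, L, c, F0, hZe, hx, hF0, hV0⟩ :=
    hC m ι S N hN V Z δ hV hF hZ hδ
  have hl : ∀ p ∈ e.source, LI N N' e p := fun p hp => ⟨L, c, by
    filter_upwards [e.open_source.mem_nhds hp] with q hq
    exact ⟨e.continuousAt hq, hx q hq⟩⟩
  obtain ⟨χ, c1, c2, -, c3⟩ := N.exists_bump hZ e.open_source hZe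
  obtain ⟨om, w1, w2, w3, w4⟩ := N.exists_bump hZ (U := interior {p | χ p = 1} ∩ U)
    (isOpen_interior.inter hU) fun p hp =>
      ⟨mem_interior_iff_mem_nhds.2 (eventually_nhdsSet_iff_forall.1 c3 p hp), hZU hp⟩
  have hs : ∀ p, χ p = 1 → p ∈ e.source := fun p hp =>
    c2 (subset_tsupport _ (by rw [mem_support, hp]; exact one_ne_zero))
  set φ : C → Y → ℝ := fun b => push e fun p => χ p * ψ b p
  have hφ : ∀ b, N'.Sm (φ b) := fun b => (Imm.Tst.push (M := amap N L c) hx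
    ⟨c1.sm.mul (hψ b), c1.cs.mul_right⟩ (tsupport_mul_subset_left.trans c2)).sm
  have h1 : ∀ p, χ p = 1 → ev φ (e p) = ev ψ p := fun p hp => funext fun b =>
    (push_apply _ (hs p hp)).trans (by rw [hp, one_mul])
  have h2 : ∀ p ∈ Z, ∀ᶠ q in 𝓝 p, χ q = 1 := eventually_nhdsSet_iff_forall.1 c3
  have h3 : ∀ p ∈ Z, ev φ (e p) = ev ψ p := fun p hp => h1 p (h2 p hp).self_of_nhds
  have hA : IsCompact (e '' Z) := hZ.image_of_continuousOn (e.continuousOn.mono hZe)
  obtain ⟨κ, i1, i2, D, d1, d2, d3, d4⟩ := smooth_path hA hr (hS ι' Y C N' (e '' Z) η r μ ℓ φ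
    ⟨hN', hA.isClosed, hη, hr, hμ, hφ⟩
    ⟨hL.1, hL.2.1, fun k => by
      rintro _ ⟨p, hp, rfl⟩
      rw [h3 p hp]
      exact hL.2.2 k p hp⟩
    (by
      rintro _ ⟨p, hp, rfl⟩
      rw [h3 p hp]
      exact (hI p hp).imp_right fun h => mem_interior_iff_mem_nhds.2
        (e.image_mem_nhds (hZe hp) (mem_interior_iff_mem_nhds.1 h)))
    ⟨F0, hF0, by
      rintro _ ⟨p, hp, rfl⟩
      rw [h3 p hp]
      refine good_mono (hG p hp) (by linarith [hV0 p (hZe hp)]) (fun b => le_of_eq ?_) fun _ => le_rfl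
      have e' : ψ b =ᶠ[𝓝 p] fun q => φ b (e q) :=
        (h2 p hp).mono fun q hq => (congrFun (h1 q hq) b).symm
      simp only [gr, norm_grad]
      rw [(hl p (hZe hp)).gam' e' e']⟩)
  have h4 : ∀ p ∈ tsupport om, χ p = 1 := fun p hp =>
    interior_subset (s := {p | χ p = 1}) (w2 hp).1
  have g1 : SmJ N.ch univ fun s q => om q • ((D s (e q)).1, (D s (e q)).2.1 - ev φ (e q)) :=
    smJ_pull w1.sm (fun p hp => hl p (hs p (h4 p hp)))
      (g := fun s y => ((D s y).1, (D s y).2.1 - ev φ y)) ((d1.comp contDiff_fst).prodMk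
        ((d1.comp contDiff_snd.fst).sub (SmJ.of_smA (smA_pi hφ))))
  have g2 : SmJ N.ch univ fun s q => om q • (D s (e q)).2.2 :=
    smJ_pull w1.sm (fun p hp => hl p (hs p (h4 p hp))) (g := fun s y => (D s y).2.2)
      (d1.comp contDiff_snd.snd)
  have h5 : ∀ p ∈ Z, ∀ᶠ q in 𝓝 p, om q = 1 := eventually_nhdsSet_iff_forall.1 w4
  have h6 : ∀ p, om p = 1 → ev φ (e p) = ev ψ p := fun p hp =>
    h1 p (h4 p (subset_tsupport _ (by rw [mem_support, hp]; exact one_ne_zero)))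
  refine ⟨κ, i1, i2, _, _, tsupport om, w1.cs, fun p hp => (w2 hp).2, g1, g2, fun q => ?_,
    fun s q hq => ?_, fun s q hq => ?_, fun s hs' => ⟨fun p hp => ?_, fun b q => ?_⟩, fun p hp => ?_⟩
  · rw [(d2 _).1, (d2 _).2, sub_self]
    exact smul_zero _
  · rw [image_eq_zero_of_notMem_tsupport hq, zero_smul]
  · rw [image_eq_zero_of_notMem_tsupport hq, zero_smul]
  · have a1 := g1.slice (mem_univ s)
    rw [tri_li (hl p (hZe hp)) (D' := D s) ((Imm.Sm.comp a1 contDiff_fst).prodMk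
      ((Imm.Sm.add (smA_pi hψ) (Imm.Sm.comp a1 contDiff_snd)).prodMk (g2.slice (mem_univ s))))
      (d1.slice (mem_univ s)) ((h5 p hp).mono fun q hq => by
        simp only [hq, one_smul, h6 q hq, add_sub_cancel])]
    exact (d3 s hs').1 _ ⟨p, hp, rfl⟩
  · by_cases hq : q ∈ tsupport om
    · have a1 := congrFun (h1 q (h4 q hq)) b
      have a2 := shr1_seg (shr1_refl _) ((d3 s hs').2 b (e q)) ⟨(w3 q).1, (w3 q).2⟩
      simp only [ev] at a1
      rw [a1] at a2
      convert a2 using 1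
      simp only [Prod.smul_snd, Pi.smul_apply, Pi.sub_apply, smul_eq_mul, a1]
      ring
    · simp only [image_eq_zero_of_notMem_tsupport hq, zero_smul, Prod.snd_zero, Pi.zero_apply,
        add_zero]
      exact shr1_refl _
  · have a1 := (h5 p hp).self_of_nhds
    simp only [a1, one_smul, h6 p a1, add_sub_cancel]
    exact d4 _ ⟨p, hp, rfl⟩

end Crest.Agent.N228.Gr

end
end

-- ▼ part N228/Gr/Dat
section

/-!
# Row 228, graft: the path on the slice is extended to the manifold (helper90)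
-/

set_option autoImplicit false
set_option linter.unusedSectionVars false
open Set Filter Topology Function Real
open scoped ContDiff
open Crest.Agent.N222 Crest.Agent.N222.A Crest.Agent.N228.G

noncomputable section

namespace Crest.Agent.N228.Gr

variable {m : ℕ} {ι C : Type} [Fintype ι] [DecidableEq ι] [Fintype C] [DecidableEq C]
  {X : Type} [TopologicalSpace X] [T2Space X] [SecondCountableTopology X] [MeasurableSpace X]
  [BorelSpace X] [CompactSpace X]

/-- the data of the graft -/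
structure GD {κ : Type} [Fintype κ] [DecidableEq κ] (M : Imm (m + 1) ι X) (A U : Set X)
    (η r : C → ℝ) (μ : ℝ) (ψ : C → X → ℝ) (𝒰 : Ultrafilter ℕ) (u : ℕ → X → ℝ)
    (N : Imm m ι (M.Sig 𝒰 u)) (D : ℝ → X → DW κ C) (Z : Set (M.Sig 𝒰 u)) : Prop where
  sm : SmJ M.ch univ D
  zero : ∀ q, (D 0 q).1 = 0 ∧ (D 0 q).2.1 = ev ψ q
  loc : ∀ s, ∀ q ∉ U, (D s q).1 = 0 ∧ (D s q).2.1 = ev ψ q
  shr : ∀ s ∈ Icc (0 : ℝ) 1, ∀ p ∈ Sb 𝒰 u, ∀ b, Shr1 (ψ b p) ((D s p).2.1 b)
  cpt : IsCompact Z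
  good : ∀ s ∈ Icc (0 : ℝ) 1, ∀ p ∈ Z, tri N (fun q => D s q) p ∈ GS m η r μ
  few : ∀ p ∈ Sb 𝒰 u, p ∈ A → p ∈ Subtype.val '' Z ∨ Few m (ev ψ p)
  one : ∀ p ∈ Z, Few m (D 1 p).2.1

variable {M : Imm (m + 1) ι X} {A U : Set X} {η r : C → ℝ} {μ : ℝ} {ℓ : ℕ → C → ℝ}
  {φ : C → X → ℝ} {c : C} {ρ : ℝ} {F : X → ℝ} {𝒰 : Ultrafilter ℕ} {u : ℕ → X → ℝ}

/-- the slice lies in the band -/
theorem sb_band {a : X → ℝ} (ha : Continuous a) (h : ∀ᶠ j in (𝒰 : Filter ℕ), ∀ p,
    (π / 2 ≤ a p → 1 ≤ u j p) ∧ (a p ≤ -(π / 2) → u j p ≤ -1)) {p : X} (hp : p ∈ Sb 𝒰 u) :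
    |a p| ≤ π / 2 := by
  refine abs_le.2 ⟨not_lt.1 fun h' => hp (Or.inr ?_), not_lt.1 fun h' => hp (Or.inl ?_)⟩
  · exact ⟨_, ha.continuousAt.eventually (gt_mem_nhds h'), h.mono fun j hj q hq => by
      linarith [(hj q).2 (le_of_lt hq)]⟩
  · exact ⟨_, ha.continuousAt.eventually (lt_mem_nhds h'), h.mono fun j hj q hq => by
      linarith [(hj q).1 (le_of_lt hq)]⟩

theorem exists_gd (hC : CarStmt) (hS : SStmt m) (hx : Ctx M A η r μ φ) (hI : Inn (m + 1) A φ c)
    (hL : Led1 η ℓ m A φ c ρ) (hρ : ρ ≤ r c) (hB : IsClosed (M.Bad 𝒰 u))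
    (hc : ∀ p ∈ Sb 𝒰 u, |φ c p| ≤ π / 2) {N : Imm m ι (M.Sig 𝒰 u)} (hN : Neck M 𝒰 u N) {ε : ℝ}
    {w : X → ℝ} {ψ : ℝ → C → X → ℝ} {V : M.Sig 𝒰 u → ℝ} {T O : Set X}
    (h : Mid M A U η r μ ℓ φ c ρ F 𝒰 u N ε w ψ V T O) :
    ∃ (κ : Type) (_ : Fintype κ) (_ : DecidableEq κ) (D : ℝ → X → DW κ C) (Z : Set (M.Sig 𝒰 u)),
      GD M A U η r (μ + (r c - ρ) + η c / 4) (ψ 1) 𝒰 u N D Z := by
  obtain ⟨T1, t1, t2, t3⟩ := normal_exists_closure_subset hB h.opT h.bad
  have hl : ∀ q, Loc N M Subtype.val q := Loc.of_cont continuous_subtype_val hN.x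
  have hψ : ∀ b, M.Sm (ψ 1 b) := fun b => (h.jc b).sm rfl 1
  have hη := hx.eta c
  have hs : ∀ p, fin (ev (ψ 1) p) ⊆ fin (ev (park φ c) p) := fun p =>
    fin_subset fun b => h.shr 1 (right_mem_Icc.2 zero_le_one) b p
  have hZ : IsCompact {q : M.Sig 𝒰 u | q.1 ∈ A ∧ q.1 ∉ T1} := by
    rw [Subtype.isCompact_iff]
    convert ((Cv.isClosed_Sb 𝒰 u).inter (hx.cl.inter t1.isClosed_compl)).isCompact using 1
    refine Subset.antisymm ?_ fun p hp => ⟨⟨p, hp.1, fun h' => hp.2.2 (t2 h')⟩, hp.2, rfl⟩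
    rintro _ ⟨q, hq, rfl⟩
    exact ⟨q.2.1, hq⟩
  obtain ⟨κ, i1, i2, g, G, K, k1, -, g1, g2, g3, g4, g5, g6, g7⟩ := slice_path hC hS (N := N)
    (fun q q' e => Subtype.ext (hx.inj (by rw [← hN.x, ← hN.x, e]))) h.smV h.form hZ isOpen_univ
    (subset_univ _) (ψ := fun b q => ψ 1 b q.1) (fun b => (hψ b).res hl) hx.eta hx.res
    (μ := μ + (r c - ρ) + η c / 4) (δ := η c / 4) (ℓ := ℓ) (by linarith [hx.mu]) (by linarith)
    ⟨hL.1.1, hL.1.2.1, fun k q hq b hb => (add_le_add_right (Finset.sum_le_sum_of_subset_of_nonneg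
      (hs q) fun b _ _ => hL.1.1 k b) _).trans (hL.1.2.2 k q hq.1 b (hs q hb))⟩
    (fun q hq => by
      by_cases hT : q.1 ∈ T
      · exact Or.inl (h.few q hT)
      refine (hI q hq.1 (hc q q.2.1)).imp (fun h' => few_of_subset ?_ (hs q)) fun h' => ?_
      · convert few_park h' (hc q q.2.1) using 1
        exact apply_update (fun _ (f : X → ℝ) => f q) φ c _ |> funext
      · refine mem_interior_iff_mem_nhds.2 (mem_of_superset
          (((isOpen_interior.inter isClosed_closure.isOpen_compl).preimage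
            continuous_subtype_val).mem_nhds ⟨h', fun h2 => hT (t3 h2)⟩) fun q' hq' => ?_)
        exact ⟨interior_subset hq'.1, fun h2 => hq'.2 (subset_closure h2)⟩)
    fun q hq => good_up (h.slc q hq.1) (by linarith)
  have hK : ∀ q ∈ K, q.1 ∈ O ∩ (M.Bad 𝒰 u)ᶜ := fun q _ => ⟨h.sb q.2.1, q.2.2⟩
  obtain ⟨g', K', -, a1, a2, a3, a4, a5⟩ :=
    exists_extJ (h.opO.inter hB.isOpen_compl) hN.chart hN.x k1 hK g1 g4
  obtain ⟨G', -, -, -, b2, b3, -⟩ :=
    exists_extJ (h.opO.inter hB.isOpen_compl) hN.chart hN.x k1 hK g2 g5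
  refine ⟨κ, i1, i2, fun s p => ((g' s p).1, ev (ψ 1) p + (g' s p).2, G' s p), _, ?_, fun q => ?_,
    fun s q hq => ?_, fun s hs p hp b => ?_, hZ, fun s hs p hp => ?_, fun p hp hA => ?_,
    fun p hp => ?_⟩
  · exact (a2.comp contDiff_fst).prodMk
      (((SmJ.of_smA (smA_pi hψ)).add (a2.comp contDiff_snd)).prodMk b2)
  · simp [a5 0 g3 q]
  · simp [a4 s q fun h' => hq (h.sub (a1 h').1)]
  · by_cases hp' : p ∈ M.Bad 𝒰 u
    · simp only [a4 s p fun h' => (a1 h').2 hp', Prod.snd_zero, add_zero]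
      exact shr1_refl _
    · have := (g6 s hs).2 b ⟨p, hp, hp'⟩
      rwa [← a3] at this
  · simp only [a3, b3]
    exact (g6 s hs).1 p hp
  · by_cases hT : p ∈ T1
    · exact Or.inr (h.few p (t3 (subset_closure hT)))
    · exact Or.inl ⟨⟨p, hp, fun h' => hT (t2 h')⟩, ⟨hA, hT⟩, rfl⟩
  · simp only [a3]
    exact g7 p hp

end Crest.Agent.N228.Gr

end
end

-- ▼ part N228/Gr/Lim
section

/-!
# Row 228, graft: the grafted family is in the class on the neck (helper90)
-/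

set_option autoImplicit false
set_option linter.unusedSectionVars false
open Set Filter Topology Function Real
open scoped ContDiff
open Crest.Agent.N222 Crest.Agent.N222.A Crest.Agent.N228.G
open Crest.Agent.N228.J (JC)

noncomputable section

namespace Crest.Agent.N228.Gr

variable {m : ℕ} {ι C κ : Type} [Fintype ι] [DecidableEq ι] [Fintype C] [DecidableEq C]
  [Fintype κ] [DecidableEq κ]
  {X : Type} [TopologicalSpace X] [T2Space X] [SecondCountableTopology X] [MeasurableSpace X]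
  [BorelSpace X] [CompactSpace X] {M : Imm (m + 1) ι X} {A U : Set X} {η r : C → ℝ} {μ : ℝ}
  {ψ : C → X → ℝ} {𝒰 : Ultrafilter ℕ} {u : ℕ → X → ℝ} {N : Imm m ι (M.Sig 𝒰 u)}
  {D : ℝ → X → DW κ C} {Z : Set (M.Sig 𝒰 u)} {ζ : ℝ → ℝ}

theorem mul_mem_Icc {a b : ℝ} (ha : a ∈ Icc (0 : ℝ) 1) (hb : b ∈ Icc (0 : ℝ) 1) :
    a * b ∈ Icc (0 : ℝ) 1 := ⟨mul_nonneg ha.1 hb.1, mul_le_one₀ ha.2 hb.1 hb.2⟩

/-- slowly varying families on the cylinder -/
theorem GD.model (h : GD M A U η r μ ψ 𝒰 u N D Z) (hN : ∀ q, N.x q = M.x q) (hr : ∀ b, 0 ≤ r b)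
    (hζ : ContDiff ℝ ∞ ζ) (h01 : ∀ t, ζ t ∈ Icc (0 : ℝ) 1) :
    ∀ᶠ ε in 𝓝 (0 : ℝ), ∀ z ∈ Icc (0 : ℝ) 1 ×ˢ Icc (-3 : ℝ) 3 ×ˢ Z,
      tri (cyl N) (fun s => D (z.1 * ζ (z.2.1 + ε * s.2)) s.1) (z.2.2, 0) ∈ GS m η r μ := by
  have hl : ∀ q, Loc N M Subtype.val q := Loc.of_cont continuous_subtype_val hN
  have h1 : SmJ M.ch univ fun θ : (ℝ × ℝ × ℝ) × ℝ => D (θ.1.2.1 * ζ (θ.1.2.2 + θ.1.1 * θ.2)) :=
    h.sm.reparam (ContDiff.contDiffOn (by fun_prop)) (mapsTo_univ _ _)
  have h2 := tri_cont (M := cyl N) (JC.of_smJ (A := (cyl N).atl) (smJ_cyl (smJ_res hl h1))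
    isOpen_univ continuous_id fun _ => mem_univ _)
  have h3 := h2.comp (f := fun w : ℝ × ℝ × ℝ × M.Sig 𝒰 u => ((w.1, w.2.1, w.2.2.1), (w.2.2.2, (0 : ℝ))))
    (by fun_prop)
  refine (isCompact_Icc.prod (isCompact_Icc.prod h.cpt)).eventually_forall_of_forall_eventually
    fun z hz => h3.continuousAt.eventually ((isOpen_GS hr μ).mem_nhds ?_)
  have h4 := tri_cyl (D := fun q : M.Sig 𝒰 u => D (z.1 * ζ z.2.1) q)
    (Imm.Sm.res (h.sm.slice (mem_univ _)) hl) (z.2.2, 0)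
  simp only [comp_apply, id, zero_mul, add_zero]
  rw [h4]
  exact h.good _ (mul_mem_Icc hz.1 (h01 _)) _ hz.2.2

theorem GD.smg (h : GD M A U η r μ ψ 𝒰 u N D Z) (hζ : ContDiff ℝ ∞ ζ) {v : X → ℝ} (hv : M.Sm v)
    (L : ℝ) : SmJ M.ch univ fun σ q => D (σ * ζ (v q / L)) q :=
  smJ_subst h.sm ((SmJ.param contDiffOn_id).mul (((SmJ.of_smA hv).div_const L).comp hζ))

/-- **the neck** -/
theorem GD.neck (h : GD M A U η r μ ψ 𝒰 u N D Z) (hN : ∀ q, N.x q = M.x q) (hr : ∀ b, 0 ≤ r b)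
    (hζ : ContDiff ℝ ∞ ζ) (h01 : ∀ t, ζ t ∈ Icc (0 : ℝ) 1) (hM : Injective M.x) (hA : IsClosed A)
    {F k : X → ℝ} {Λ : ℝ} {τ s : ℕ → ℝ} (hF : M.Sm F) (hW : WSeq M F k Λ 𝒰 u τ s)
    {φ : C → X → ℝ} (hφ : ∀ b, Continuous (φ b)) {c : C}
    (hs : ∀ p ∈ Sb 𝒰 u, ∀ b, b ≠ c → Shr2 (φ b p) (ψ b p)) :
    ∀ᶠ L in atTop, ∀ᶠ j in (𝒰 : Filter ℕ), ∀ σ ∈ Icc (0 : ℝ) 1, ∀ q, |u j q| ≤ 3 * L →
      (q ∈ A → tri (M.graph (u j) (hW.adm j).sm) (fun q => D (σ * ζ (u j q / L)) q) q ∈ GS m η r μ ∧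
        Few m (D 1 q).2.1) ∧ ∀ b, b ≠ c → Shr1 (φ b q) ((D (σ * ζ (u j q / L)) q).2.1 b) := by
  have hl : ∀ q, Loc N M Subtype.val q := Loc.of_cont continuous_subtype_val hN
  filter_upwards [tendsto_inv_atTop_zero.eventually (h.model hN hr hζ h01), eventually_gt_atTop 0]
    with L hL hL0
  refine (neck_ev (wCyl m ι X M F k Λ 𝒰 u τ s hM hF hW).2 isCompact_univ isCompact_Icc (3 * L)
    (R := fun j σ q => (q ∈ A → tri (M.graph (u j) (hW.adm j).sm)
      (fun q => D (σ * ζ (u j q / L)) q) q ∈ GS m η r μ ∧ Few m (D 1 q).2.1) ∧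
      ∀ b, b ≠ c → Shr1 (φ b q) ((D (σ * ζ (u j q / L)) q).2.1 b))
    fun σ q σ0 p t h0 _ hp ht l1 l2 l3 => ?_).mono fun j hj σ hσ q hq => hj σ hσ q (mem_univ _) hq
  have hc := h.sm.continuous M.mem
  have hs0 := mul_mem_Icc h0 (h01 (t / L))
  have l4 : Tendsto (fun j => (D (σ j * ζ (u j (q j) / L)) (q j)).2.1) 𝒰
      (𝓝 (D (σ0 * ζ (t / L)) p).2.1) :=
    ((hc.tendsto (_, p)).comp ((l1.mul ((hζ.continuous.tendsto _).comp (l3.div_const L))).prodMk_nhds
      l2)).snd_nhds.fst_nhds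
  have l5 : Tendsto (fun j => (D 1 (q j)).2.1) 𝒰 (𝓝 (D 1 p).2.1) :=
    ((hc.tendsto (1, p)).comp (tendsto_const_nhds.prodMk_nhds l2)).snd_nhds.fst_nhds
  refine Eventually.and ?_ (eventually_all.2 fun b => eventually_imp_distrib_left.2 fun hb =>
    shr1_ev (hs p hp b hb) (h.shr _ hs0 p hp b) (((hφ b).tendsto p).comp l2)
      (tendsto_pi_nhds.1 l4 b))
  by_cases hA' : p ∈ A
  swap
  · exact (l2.eventually (hA.isOpen_compl.mem_nhds hA')).mono fun j hj h' => (hj h').elim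
  refine Eventually.mono ?_ fun j hj _ => hj
  rcases h.few p hp hA' with ⟨p, hZ, rfl⟩ | hf
  swap
  · exact ((few_ev l4 (few_of_subset hf (fin_subset (h.shr _ hs0 p hp)))).mono fun j => Or.inl).and
      (few_ev l5 (few_of_subset hf (fin_subset (h.shr _ (right_mem_Icc.2 zero_le_one) p hp))))
  refine Eventually.and ?_ (few_ev l5 (h.one p hZ))
  obtain ⟨e, ρ, ch, B⟩ := wBox m ι X M F k Λ 𝒰 u τ s hM hF hW p hp t
    (wAllHt m ι X M F k Λ 𝒰 u τ s hM hF hW p p.2 t)
  obtain ⟨e', he', hpe, hch, H⟩ :=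
    neck_charts hM hN (wNet m ι X M F k Λ 𝒰 u τ s hM hF hW).1 B l2 l3
  have P : PC 𝒰 (fun j => amap (M.graph (u j) (hW.adm j).sm) LinearIsometry.id (up (-t) 0)) ch q
      (cyl N) (prodChart e') (p, 0) :=
    ⟨hch.mono fun j hj => ⟨isChart_iso _ _ (Imm.isChart_graph (hW.adm j).sm hj.1), hj.2⟩,
      isChart_prod he', hpe, (H ℝ _ (fun θ q => up θ.2 (M.x q)) σ σ0
        (((SmJ.param contDiffOn_snd).prodMk (SmJ.of_smA M.sm_x)).comp contDiff_up) l1).congr
        (.of_forall fun j => .of_forall fun _ => (up_add _ _ _ _).trans (by rw [add_zero]; rfl))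
        (.of_forall fun _ => congrArg (up _) (hN _))⟩
  have h1 : SmJ M.ch univ fun θ : ℝ × ℝ => D (θ.1 * ζ (t / L + L⁻¹ * θ.2)) :=
    h.sm.reparam (ContDiff.contDiffOn (by fun_prop)) (mapsTo_univ _ _)
  have h2 := H ℝ _ _ σ σ0 h1 l1
  have h3 : ∀ a : ℝ, t / L + L⁻¹ * (a - t) = a / L := fun a => by ring
  simp only [h3] at h2
  have h4 := fun j => (h.smg hζ (hW.adm j).sm L).slice (mem_univ (σ j))
  have h5 := tri_lim P h4 ((smJ_cyl (smJ_res hl h1)).slice (mem_univ σ0)) h2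
  have h6 := hL (σ0, t / L, p) ⟨h0, abs_le.1 (by rwa [abs_div, abs_of_pos hL0, div_le_iff₀ hL0]), hZ⟩
  refine (h5.eventually ((isOpen_GS hr μ).mem_nhds h6)).mono fun j hj => ?_
  rwa [tri_li (li_amap (M.graph (u j) (hW.adm j).sm) LinearIsometry.id (up (-t) 0) (q j))
    (h4 j) (h4 j) (.of_forall fun _ => rfl)]

end Crest.Agent.N228.Gr

end
end

-- ▼ part N228/Gr/Graft
section

/-!
# Row 228: GRAFT (helper90)
-/

set_option autoImplicit false
set_option linter.unusedSectionVars false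
open Set Filter Topology Function Real
open scoped ContDiff
open Crest.Agent.N222 Crest.Agent.N222.A Crest.Agent.N228.G
open Crest.Agent.N228.J (JC)

noncomputable section

namespace Crest.Agent.N228.Gr

variable {d : ℕ} {ι C κ : Type} [Fintype ι] [DecidableEq ι] [Fintype C] [Fintype κ] [DecidableEq κ]
  {X : Type} [TopologicalSpace X] [T2Space X] [SecondCountableTopology X] [MeasurableSpace X]
  [BorelSpace X] [CompactSpace X]

/-- two weights are glued along a long neck -/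
theorem inD_glue {Γ : Imm d ι X} {A : Set X} {η r : C → ℝ} {μ ε L B : ℝ} {y : κ → X → ℝ}
    (hy : ∀ i, Γ.Sm (y i)) {χ χ0 : C → X → ℝ} {u F1 F2 : X → ℝ} (hu : Γ.Sm u)
    (h1 : ∀ p, Γ.pre.gam u u p ≤ 1) {θ : ℝ → ℝ} (hθ : ContDiff ℝ ∞ θ)
    (t1 : ∀ t, |t| ≤ 5 / 2 → θ t = 1) (t0 : ∀ t, 3 ≤ |t| → θ t = 0) (hB : ∀ t, |deriv θ t| ≤ B)
    (hL : 0 < L) (hF1 : Γ.Sm F1) (hF2 : Γ.Sm F2) (hε : π ^ 2 * (B / L) ^ 2 < ε)
    (hz : ∀ p, 2 * L < |u p| → (∀ i, y i p = 0) ∧ ∀ b, χ b p = χ0 b p)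
    (g1 : ∀ p ∈ A, Good d η r (Γ.pre.EF F1 p - μ - ε) (ev χ0 p) (gr Γ χ0 p))
    (g2 : ∀ p ∈ A, |u p| ≤ 3 * L →
      Good d η r ((Γ.xt y).pre.EF F2 p - μ - ε) (ev χ p) (gr (Γ.xt y) χ p)) :
    InD (Γ.xt y) A η r μ χ := by
  have hU : IsOpen {p | 2 * L < |u p|} := isOpen_lt continuous_const hu.continuous.abs
  have hu' : Γ.Sm fun p => L⁻¹ * u p := (Imm.sm_const _).mul hu
  have ha : ∀ p, |L⁻¹ * u p| = |u p| / L := fun p => by
    rw [abs_mul, abs_of_pos (inv_pos.2 hL), inv_mul_eq_div]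
  have hs : (Γ.xt y).Sm fun p => θ (L⁻¹ * u p) := hu'.comp hθ
  have hsp : tsupport (fun p => 1 - θ (L⁻¹ * u p)) ⊆ {p | 2 * L < |u p|} := by
    refine (closure_minimal (t := {p | 5 / 2 * L ≤ |u p|}) (support_subset_iff.2 fun p hp =>
      (not_lt.1 fun h => hp ?_ : 5 / 2 * L ≤ |u p|)) (isClosed_le continuous_const hu.continuous.abs)).trans fun p hp => ?_
    · rw [t1 _ (by rw [ha, div_le_iff₀ hL]; exact h.le), sub_self]
    · rw [mem_ofPred_eq] at hp ⊢
      linarith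
  have c1 := hF1.EF.continuous
  have c2 := (Imm.Sm.EF (M := Γ.xt y) hF2).continuous
  obtain ⟨F, hF, H⟩ := lin (((((continuous_cos.comp (continuous_const.mul hs.continuous)).pow 2).mul
    c1).add (((continuous_sin.comp (continuous_const.mul hs.continuous)).pow 2).mul c2)).sub
      (continuous_const.mul (hs.gam hs).continuous))
    (ims_cut hs ((formOn_of_form (form_EF hF1) _).of_eq hU (inlL ι κ) 0
      fun p hp => xt_zero hy (hz p hp).1) (formOn_of_form (form_EF (M := Γ.xt y) hF2) univ)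
      hsp (subset_univ _) c1 c2) (sub_pos.2 hε)
  refine ⟨F, hF, fun p hp => ?_⟩
  have h2 : (Γ.xt y).pre.gam (fun p => θ (L⁻¹ * u p)) (fun p => θ (L⁻¹ * u p)) p ≤ (B / L) ^ 2 := by
    have a1 : Γ.pre.gam (fun p => θ (L⁻¹ * u p)) (fun p => θ (L⁻¹ * u p)) p =
        (deriv θ (L⁻¹ * u p) / L) ^ 2 * Γ.pre.gam u u p := by
      simp only [Imm.gam_apply, Imm.D_comp (hu'.diffAt p)
        (hθ.differentiable (by simp) _).hasDerivAt, Imm.D_const_mul _ (hu.diffAt p), Finset.mul_sum]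
      exact Finset.sum_congr rfl fun _ _ => by ring
    have a2 : (deriv θ (L⁻¹ * u p) / L) ^ 2 ≤ (B / L) ^ 2 := by
      rw [div_pow, div_pow]
      exact div_le_div_of_nonneg_right (sq_le_sq' (abs_le.1 (hB _)).1 (abs_le.1 (hB _)).2)
        (sq_nonneg _)
    rw [Imm.gam_self_eq]
    refine (pow_le_pow_left₀ (norm_nonneg _) (xt_grad_le Γ y _ p) 2).trans ?_
    rw [← Imm.gam_self_eq, a1]
    exact (mul_le_of_le_one_right (sq_nonneg _) (h1 p)).trans a2
  have h3 := mul_le_mul_of_nonneg_left h2 (sq_nonneg π)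
  have h4 : cos (π / 2 * θ (L⁻¹ * u p)) ^ 2 * Γ.pre.EF F1 p +
      sin (π / 2 * θ (L⁻¹ * u p)) ^ 2 * (Γ.xt y).pre.EF F2 p -
      π ^ 2 * (Γ.xt y).pre.gam (fun p => θ (L⁻¹ * u p)) (fun p => θ (L⁻¹ * u p)) p -
      (ε - π ^ 2 * (B / L) ^ 2) ≤ (Γ.xt y).pre.EF F p := H p
  have g3 : 2 * L < |u p| → Good d η r (Γ.pre.EF F1 p - μ - ε) (ev χ p) (gr (Γ.xt y) χ p) :=
    fun h => by
      rw [show ev χ p = ev χ0 p from funext (hz p h).2]
      refine good_mono (g1 p hp) le_rfl (fun b => (xt_grad_le Γ y _ p).trans_eq ?_) fun _ => le_rfl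
      have e : χ b =ᶠ[𝓝 p] χ0 b := mem_of_superset (hU.mem_nhds h) fun q hq => (hz q hq).2 b
      rw [gr, norm_grad, norm_grad, Imm.gam_congr e e]
  rcases le_or_gt |u p| (2 * L) with h | h
  · rw [t1 (L⁻¹ * u p) (by rw [ha, div_le_iff₀ hL]; linarith), mul_one, cos_pi_div_two, sin_pi_div_two] at h4
    exact good_up (g2 p hp (by linarith)) (by linarith)
  rcases le_or_gt |u p| (3 * L) with h' | h'
  · refine good_conv (g3 h) (g2 p hp h') (sq_nonneg _) (sq_nonneg _)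
      (cos_sq_add_sin_sq (π / 2 * θ (L⁻¹ * u p))) ?_
    linear_combination h4 + h3 - (μ + ε) * cos_sq_add_sin_sq (π / 2 * θ (L⁻¹ * u p))
  · rw [t0 (L⁻¹ * u p) (by rw [ha, le_div_iff₀ hL]; linarith), mul_zero, cos_zero, sin_zero] at h4
    exact good_up (g3 h) (by linarith)

theorem exists_cut {a b : ℝ} (ha : 0 < a) (hab : a < b) : ∃ θ : ℝ → ℝ, ContDiff ℝ ∞ θ ∧
    (∀ t, θ t ∈ Icc (0 : ℝ) 1) ∧ (∀ t, |t| ≤ a → θ t = 1) ∧ (∀ t, b ≤ |t| → θ t = 0) ∧
    ∃ B, ∀ t, |deriv θ t| ≤ B := by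
  let f : ContDiffBump (0 : ℝ) := ⟨a, b, ha, hab⟩
  refine ⟨f, f.contDiff, fun t => ⟨f.nonneg, f.le_one⟩,
    fun t ht => f.one_of_mem_closedBall (by simpa using ht),
    fun t ht => f.zero_of_le_dist (by simpa using ht), ?_⟩
  exact ((f.contDiff (n := 1)).continuous_deriv le_rfl).bounded_above_of_compact_support
    f.hasCompactSupport.deriv

/-- **GRAFT** -/
theorem graft (hC : CarStmt) : GraftStmt := by
  intro m hS ι _ _ X _ _ _ _ _ _ C _ _ M A η r μ ℓ φ hx U c ρ F γ k Λ 𝒰 u τ s hI hL hρ hD _ _ N hN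
    ε w ψ V T O h
  have hW := hD.nk.seq
  have h1 := right_mem_Icc.2 (zero_le_one (α := ℝ))
  obtain ⟨κ, i1, i2, D, Z, G⟩ := exists_gd hC hS hx hI hL hρ
    (wNet m ι X M F _ Λ 𝒰 u τ s hx.inj hD.smF hW).1
    (fun p hp => sb_band (hx.sm c).continuous (hD.nk.bar 1) hp) hN h
  obtain ⟨ζ, z1, z2, z3, z4, -⟩ := exists_cut one_pos one_lt_two
  obtain ⟨θ, t1, -, t2, t3, B, t4⟩ := exists_cut (a := 5 / 2) (b := 3) (by norm_num) (by norm_num)
  have hη := hx.eta c
  have hε := h.pos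
  have l0 : ∀ a : ℝ, Tendsto (fun L : ℝ => a / L) atTop (𝓝 0) := fun a =>
    tendsto_const_nhds.div_atTop tendsto_id
  have l1 : Tendsto (fun L : ℝ => π ^ 2 * (B / L) ^ 2) atTop (𝓝 0) := by
    simpa using ((l0 B).pow 2).const_mul (π ^ 2)
  refine eventually_atTop.1 ?_
  filter_upwards [G.neck hN.x hx.res z1 z2 hx.inj hx.cl hD.smF hW (fun b => (hx.sm b).continuous)
      fun p hp => h.shr2 p (h.sb hp), eventually_gt_atTop 0, (l0 2).eventually (gt_mem_nhds hε),
    (l0 2).eventually (gt_mem_nhds (show 0 < √(η c) / 8 by positivity)),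
    l1.eventually (gt_mem_nhds (lt_min hε (show 0 < η c / 5 by positivity)))] with L H L0 L1 L2 L3
  filter_upwards [H] with j H hu f hf hsh hfu
  have hs := G.smg z1 hu L
  have hj : JC (M.graph (u j) hu).atl univ fun σ q => D (σ * ζ (u j q / L)) q :=
    JC.of_smJ (A := (M.graph (u j) hu).atl) hs isOpen_univ continuous_id fun _ => mem_univ _
  have hz : ∀ σ p, 2 * L ≤ |u j p| → D (σ * ζ (u j p / L)) p = D 0 p := fun σ p hp => by
    rw [z4 _ (by rwa [abs_div, abs_of_pos L0, le_div_iff₀ L0]), mul_zero]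
  have hup : ∀ (χ χ' : C → X → ℝ) p, (∀ b, χ b p = χ' b p) →
      ∀ b, update χ c f b p = update χ' c f b p := fun χ χ' p e b => by
    rw [apply_update (fun _ (g : X → ℝ) => g p), apply_update (fun _ (g : X → ℝ) => g p), funext e]
  have hev : ∀ (χ : C → X → ℝ) p, ev (update χ c f) p = update (ev χ p) c (f p) := fun χ p =>
    funext (apply_update (fun _ (g : X → ℝ) => g p) χ c f)
  have hgr : ∀ {ι' : Type} [Fintype ι'] [DecidableEq ι'] (Γ : Imm (m + 1) ι' X) (χ : C → X → ℝ) p,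
      gr Γ (update χ c f) p = update (gr Γ χ p) c ‖Γ.grad f p‖ := fun Γ χ p =>
    funext (apply_update (fun _ (g : X → ℝ) => ‖Γ.grad g p‖) χ c f)
  refine ⟨κ, i1, i2, fun σ i q => (D (σ * ζ (u j q / L)) q).1 i,
    fun σ => update (fun b q => (D (σ * ζ (u j q / L)) q).2.1 b) c f,
    ⟨fun i => hj.fst.apply i, fun b => ?_, fun i p => ?_, ?_, fun σ hσ => ?_, fun σ hσ b p => ?_,
      fun σ _ p hp => ⟨fun i => congrFun (G.loc _ p hp).1 i,
        hup _ _ p fun b => congrFun (G.loc _ p hp).2 b⟩⟩, fun p hp hc => ?_⟩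
  · by_cases hb : b = c
    · simp only [hb, update_self]
      exact JC.of_sm rfl isOpen_univ hf
    · simp only [update_of_ne hb]
      exact hj.snd.fst.apply b
  · rw [zero_mul, (G.zero p).1, Pi.zero_apply]
  · simp only [zero_mul, (G.zero _).2]
  · have a0 := hs.slice (mem_univ σ)
    refine inD_glue (χ0 := update (ψ 1) c f) (u := u j) (F1 := wF M F w (u j))
      (F2 := fun q => (D (σ * ζ (u j q / L)) q).2.2) (sm1 (M := M.graph (u j) hu) a0) hu (fun p => ?_)
      t1 t2 t3 t4 L0 ((hD.smF.add (hu.vv.log fun p => (M.vv_pos _ p).ne')).add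
        ((Imm.sm_const _).mul (h.smw.log fun p => (h.wpos p).ne'))) (sm3 (M := M) a0) L3
      (fun p hp => ⟨fun i => ?_, hup _ _ p fun b => ?_⟩) (fun p hp => ?_) fun p hp hp' => ?_
    · rw [Imm.graph_pre, Imm.gS_gam_u]
      linarith [sq_nonneg (M.vv (u j) p)]
    · rw [hz σ p hp.le, (G.zero p).1, Pi.zero_apply]
    · rw [hz σ p hp.le, (G.zero p).2]
    · rw [hev, hgr, Imm.graph_pre]
      refine good_mono (h.gph j hu 1 h1 p hp _ _ fun h' => ⟨shr1_abs (hsh p) h',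
        (hfu p h').2.trans L1.le⟩) (by linarith [min_le_left ε (η c / 5)]) (fun _ => le_rfl)
        fun b => ?_
      by_cases hb : b = c
      · rw [hb, update_self, update_self]
        linarith [hL.2.1]
      · rw [update_of_ne hb, update_of_ne hb]
    · rw [hev, hgr]
      exact good_up (good_update (tri_mem.1 ((H σ hσ p hp').1 hp).1) hx.res (sub_nonneg.2 hρ) hη.le
        fun h' => ((xt_grad_le _ _ f p).trans (hfu p h').2).trans_lt L2)
        (by linarith [min_le_right ε (η c / 5)])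
  · by_cases hb : b = c
    · rw [hb, update_self]
      exact hsh p
    rw [update_of_ne hb]
    rcases le_total |u j p| (3 * L) with hp | hp
    · exact (H σ hσ p hp).2 b hb
    · have := h.shr 1 h1 b p
      rw [park, update_of_ne hb] at this
      rwa [hz σ p (by linarith), (G.zero p).2]
  · beta_reduce at hc ⊢
    rw [update_self] at hc
    have a1 := (hfu p hc).1
    rw [hev]
    refine few_update ?_
    change Few m (D (1 * ζ (u j p / L)) p).2.1
    rw [z3 _ (show |u j p / L| ≤ 1 by rwa [abs_div, abs_of_pos L0, div_le_one L0]), mul_one]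
    exact ((H 1 h1 p (by linarith)).1 hp).2

end Crest.Agent.N228.Gr

end
end

-- ▼ part N228/T/Prof
section

/-!
# Row 228, top layer: `prof : ProfStmt`, `pay_of_sq`, `grad_prof` (helper35)
-/

set_option autoImplicit false
open MeasureTheory Set Filter Topology Function Real
open scoped ContDiff

noncomputable section

namespace Crest.Agent.N228.T
open Crest.Agent.N222

namespace Pf

local notation "σ" => Real.smoothTransition

theorem deriv_st {x : ℝ} (h : x ≤ 0 ∨ 1 ≤ x) : deriv σ x = 0 := by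
  rcases h with h | h
  · refine IsLocalMin.deriv_eq_zero (Eventually.of_forall fun y => ?_)
    rw [smoothTransition.zero_of_nonpos h]
    exact smoothTransition.nonneg y
  · refine IsLocalMax.deriv_eq_zero (Eventually.of_forall fun y => ?_)
    rw [smoothTransition.one_of_one_le h]
    exact smoothTransition.le_one y

/-- three steps; flat at the levels `± π / 2` -/
def Th (t : ℝ) : ℝ := -2 + (2 - π / 2) * σ (3 / 2 * (t + 1)) + π * σ (3 / 2 * (t + 1) - 1) +
  (2 - π / 2) * σ (3 / 2 * (t + 1) - 2)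

theorem Th_smooth : ContDiff ℝ ∞ Th := by
  have h : ∀ c : ℝ, ContDiff ℝ ∞ fun t : ℝ => σ (3 / 2 * (t + 1) - c) := fun c =>
    smoothTransition.contDiff.comp (by fun_prop)
  have h0 := h 0
  simp only [sub_zero] at h0
  exact ((contDiff_const.add (contDiff_const.mul h0)).add (contDiff_const.mul (h 1))).add
    (contDiff_const.mul (h 2))

theorem c_pos : 0 < 2 - π / 2 := by linarith [pi_lt_four]

theorem Th_abs (t : ℝ) : |Th t| ≤ 2 := by
  have h1 := fun x => mul_nonneg c_pos.le (smoothTransition.nonneg x)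
  have h2 := fun x => mul_le_of_le_one_right c_pos.le (smoothTransition.le_one x)
  have h3 := fun x => mul_nonneg pi_pos.le (smoothTransition.nonneg x)
  have h4 := fun x => mul_le_of_le_one_right pi_pos.le (smoothTransition.le_one x)
  unfold Th
  rw [abs_le]
  constructor
  · linarith [h1 (3 / 2 * (t + 1)), h1 (3 / 2 * (t + 1) - 2), h3 (3 / 2 * (t + 1) - 1)]
  · linarith [h2 (3 / 2 * (t + 1)), h2 (3 / 2 * (t + 1) - 2), h4 (3 / 2 * (t + 1) - 1)]

theorem Th_one {t : ℝ} (h : 1 ≤ t) : Th t = 2 := by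
  unfold Th
  rw [smoothTransition.one_of_one_le (by linarith), smoothTransition.one_of_one_le (by linarith),
    smoothTransition.one_of_one_le (by linarith)]
  ring

theorem Th_neg {t : ℝ} (h : t ≤ -1) : Th t = -2 := by
  unfold Th
  rw [smoothTransition.zero_of_nonpos (by linarith), smoothTransition.zero_of_nonpos (by linarith),
    smoothTransition.zero_of_nonpos (by linarith)]
  ring

theorem Th_deriv {t : ℝ} (h : 3 / 2 * (t + 1) = 1 ∨ 3 / 2 * (t + 1) = 2) : deriv Th t = 0 := by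
  have h1 : ∀ c : ℝ, (3 / 2 * (t + 1) - c ≤ 0 ∨ 1 ≤ 3 / 2 * (t + 1) - c) →
      HasDerivAt (fun t : ℝ => σ (3 / 2 * (t + 1) - c)) 0 t := fun c hc => by
    have h2 : HasDerivAt σ 0 (3 / 2 * (t + 1) - c) := deriv_st hc ▸
      ((smoothTransition.contDiff (n := 1)).differentiable (by simp) _).hasDerivAt
    have h3 : HasDerivAt (fun t : ℝ => 3 / 2 * (t + 1) - c) (3 / 2 * 1) t :=
      (((hasDerivAt_id t).add_const 1).const_mul _).sub_const c
    exact (h2.comp t h3).congr_deriv (zero_mul _)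
  have h0 := h1 0 (Or.inr (by rcases h with h | h <;> linarith))
  simp only [sub_zero] at h0
  have h4 := (((h0.const_mul (2 - π / 2)).const_add (-2)).add
    ((h1 1 (by rcases h with h | h; exacts [Or.inl (by linarith), Or.inr (by linarith)])).const_mul
      π)).add ((h1 2 (Or.inl (by rcases h with h | h <;> linarith))).const_mul (2 - π / 2))
  exact h4.deriv.trans (by simp)

theorem Th_flat {t : ℝ} (h : |Th t| = π / 2) : deriv Th t = 0 := by
  refine Th_deriv ?_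
  have hc := c_pos
  set u := 3 / 2 * (t + 1) with hu
  have e : Th t = -2 + (2 - π / 2) * σ u + π * σ (u - 1) + (2 - π / 2) * σ (u - 2) := rfl
  by_contra hne
  rw [not_or] at hne
  rcases lt_or_gt_of_ne hne.1 with h1 | h1
  · rw [smoothTransition.zero_of_nonpos (x := u - 1) (by linarith),
      smoothTransition.zero_of_nonpos (x := u - 2) (by linarith)] at e
    have := mul_lt_mul_of_pos_left (smoothTransition.lt_one_of_lt_one h1) hc
    have := neg_abs_le (Th t)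
    linarith
  rcases lt_or_gt_of_ne hne.2 with h2 | h2
  · rw [smoothTransition.one_of_one_le h1.le,
      smoothTransition.zero_of_nonpos (x := u - 2) (by linarith)] at e
    have h3 := mul_lt_mul_of_pos_left
      (smoothTransition.lt_one_of_lt_one (x := u - 1) (by linarith)) pi_pos
    have h4 := mul_pos pi_pos (smoothTransition.pos_of_pos (x := u - 1) (by linarith))
    exact absurd h (abs_lt.2 ⟨by linarith, by linarith⟩).ne
  · rw [smoothTransition.one_of_one_le h1.le,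
      smoothTransition.one_of_one_le (x := u - 1) (by linarith)] at e
    have := mul_pos hc (smoothTransition.pos_of_pos (x := u - 2) (by linarith))
    have := le_abs_self (Th t)
    linarith

end Pf

open Pf in
theorem prof : ProfStmt := by
  intro η I hη
  have hs : 0 < √η := sqrt_pos.2 hη
  have hc : Continuous Th := Th_smooth.continuous
  have hd : Continuous (deriv Th) := Th_smooth.continuous_deriv (by simp)
  set K : Set ℝ := Icc (-1) 1 ∩ ({t | |Th t| ≤ π / 2} ∩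
    {t | √η * sin (Th t) ^ 2 / 16 ≤ |deriv Th t| * √I}) with hK
  have hKc : IsCompact K := isCompact_Icc.inter_right
    ((isClosed_le hc.abs continuous_const).inter (isClosed_le (by fun_prop) (by fun_prop)))
  have hcos : ∀ t ∈ K, 0 < cos (Th t) := fun t ht => by
    have h1 : |Th t| ≤ π / 2 := ht.2.1
    have h2 : √η * sin (Th t) ^ 2 / 16 ≤ |deriv Th t| * √I := ht.2.2
    rcases h1.lt_or_eq with h | h
    · exact cos_pos_of_mem_Ioo (abs_lt.1 h)
    · have h3 : cos (Th t) = 0 := by rw [← cos_abs, h, cos_pi_div_two]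
      have h4 : sin (Th t) ^ 2 = 1 := by rw [sin_sq, h3]; ring
      rw [Th_flat h, h4] at h2
      simp only [abs_zero, zero_mul] at h2
      linarith
  obtain ⟨B, hB⟩ := hKc.bddAbove_image (f := fun t => |deriv Th t| / cos (Th t))
    (hd.abs.continuousOn.div (continuous_cos.comp hc).continuousOn fun t ht => (hcos t ht).ne')
  refine ⟨2 * (|B| + 1), Th, by positivity, Th_smooth, Th_abs, fun _ => Th_one, fun _ => Th_neg,
    fun t g hg hI ht => ?_⟩
  have h0 := cos_nonneg_of_mem_Icc (abs_le.1 ht)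
  by_cases htK : t ∈ K
  · have h1 : |deriv Th t| ≤ B * cos (Th t) := (div_le_iff₀ (hcos t htK)).1 (hB ⟨t, htK, rfl⟩)
    have h2 : B * cos (Th t) ≤ (|B| + 1) * cos (Th t) :=
      mul_le_mul_of_nonneg_right (by linarith [le_abs_self B]) h0
    have h3 := mul_le_mul_of_nonneg_right (h1.trans h2) hg
    have h4 : 0 ≤ √η * sin (Th t) ^ 2 / 16 := by positivity
    linarith
  · have h1 : t ∈ Icc (-1 : ℝ) 1 := by
      constructor <;> by_contra h
      · rw [Th_neg (not_le.1 h).le, abs_neg, abs_two] at ht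
        linarith [c_pos]
      · rw [Th_one (not_le.1 h).le, abs_two] at ht
        linarith [c_pos]
    have h2 : |deriv Th t| * √I < √η * sin (Th t) ^ 2 / 16 := not_le.1 fun h => htK ⟨h1, ht, h⟩
    have h3 := mul_le_mul_of_nonneg_left (le_sqrt_of_sq_le hI) (abs_nonneg (deriv Th t))
    have h4 : 0 ≤ 2 * (|B| + 1) / 2 * g * cos (Th t) := by positivity
    linarith

variable {d : ℕ} {ι : Type} [Fintype ι] [DecidableEq ι] {X : Type} [TopologicalSpace X]
  {C : Type} [Fintype C]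

theorem pay_of_sq (M : Imm d ι X) {η v s : ℝ} (hη : 0 < η) (hs : 0 < s) (φ : C → X → ℝ) (p : X)
    (b g : C → ℝ) (h : ∀ c, |φ c p| ≤ π / 2 → 0 ≤ b c * g c ∧
      ‖M.grad (φ c) p‖ ≤ b c / 2 * g c * cos (φ c p) + √η * sin (φ c p) ^ 2 / 16)
    (hv : s + ∑ c, b c ^ 2 * g c ^ 2 ≤ v) : Pay M η φ (v - s / 2) p := by
  have hr : 0 < √η := sqrt_pos.2 hη
  set n : ℝ := (Fintype.card C : ℝ) with hn
  have hn0 : 0 ≤ n := Nat.cast_nonneg _
  set e : ℝ := √(s / (8 * (n + 1))) with he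
  have he0 : 0 < e := sqrt_pos.2 (by positivity)
  have he2 : e ^ 2 * (8 * (n + 1)) = s := by
    rw [he, sq_sqrt (by positivity)]; field_simp
  refine ⟨fun c => b c * g c / 2 + e, fun c hc => ?_, ?_⟩
  · have hc' : |φ c p| ≤ π / 2 := (G.mem_fin (φ := G.ev φ p)).1 hc
    have h1 := (h c hc').2
    have h2 := cos_nonneg_of_mem_Icc (abs_le.1 hc')
    have h3 := G.one_le_cos_add hc'
    have h4 : 0 < e * cos (φ c p) + √η * sin (φ c p) ^ 2 / 16 := by
      rcases h2.lt_or_eq with h5 | h5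
      · positivity
      · have h6 : 0 < sin (φ c p) ^ 2 := by linarith
        positivity
    change ‖M.grad (φ c) p‖ < (b c * g c / 2 + e) * cos (φ c p) + √η / 8 * sin (φ c p) ^ 2
    linarith
  · have h1 : ∑ c ∈ G.fin (G.ev φ p), (4 / 3 * (b c * g c / 2 + e) ^ 2 + (0 : C → ℝ) c) ≤
        ∑ c, (b c ^ 2 * g c ^ 2 + 8 / 3 * e ^ 2) := by
      refine (Finset.sum_le_sum fun c _ => ?_).trans
        (Finset.sum_le_sum_of_subset_of_nonneg (Finset.subset_univ _) fun c _ _ => by positivity)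
      rw [Pi.zero_apply]
      nlinarith [sq_nonneg (b c * g c / 2 - e), sq_nonneg (b c * g c)]
    refine h1.trans_lt ?_
    rw [Finset.sum_add_distrib, Finset.sum_const, Finset.card_univ, nsmul_eq_mul, ← hn]
    have h2 : 0 < e ^ 2 := by positivity
    nlinarith

theorem grad_prof (M : Imm d ι X) {f φ : X → ℝ} {Θ : ℝ → ℝ} {p : X} (hf : M.Sm f)
    (hΘ : ContDiff ℝ ∞ Θ) (h : φ =ᶠ[𝓝 p] fun q => Θ (f q)) :
    ‖M.grad φ p‖ = |deriv Θ (f p)| * √(M.pre.gam f f p) := by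
  have h1 : M.grad φ p = deriv Θ (f p) • M.grad f p := by
    ext a
    exact (Imm.D_congr h a).trans
      (Imm.D_comp (hf.diffAt p) (hΘ.differentiable (by simp) _).hasDerivAt a)
  rw [h1, norm_smul, Imm.gam_self_eq, sqrt_sq (norm_nonneg _), Real.norm_eq_abs]

end Crest.Agent.N228.T

end
end

-- ▼ part N228/T/Top1
section

/-!
# Row 228, the top layer (helper94): states, runs with phases
-/

set_option autoImplicit false
open MeasureTheory Set Filter Topology Function Real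
open scoped ContDiff

noncomputable section

namespace Crest.Agent.N228.T
open Crest.Agent.N222 Crest.Agent.N222.Imm
open Crest.Agent.N228.G (Few Shr Shr1 ev)

/-- a state -/
structure St (n : ℕ) (X : Type) [TopologicalSpace X] : Type 1 where
  ι : Type
  [fin : Fintype ι]
  [dec : DecidableEq ι]
  M : Imm n ι X
  V : X → ℝ

attribute [instance] St.fin St.dec

section Basic

variable {n : ℕ} {X : Type} [TopologicalSpace X] {C C' : Type}

/-- squared gradient -/
abbrev St.Γ (a : St n X) (f : X → ℝ) (p : X) : ℝ := a.M.pre.gam f f p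

theorem St.norm_grad (a : St n X) (f : X → ℝ) (p : X) : ‖a.M.grad f p‖ = √(a.Γ f p) := by
  rw [St.Γ, gam_self_eq, Real.sqrt_sq (norm_nonneg _)]

theorem St.Γ_const (a : St n X) {f : X → ℝ} {p : X} {r : ℝ} (h : f =ᶠ[𝓝 p] fun _ => r) :
    a.Γ f p = 0 := by
  simp only [St.Γ, gam_apply, D_congr h, D_const, mul_zero, Finset.sum_const_zero]

/-- the metric of `b` is at least `1 / c` times the metric of `a` -/
def St.Le (a b : St n X) (c : ℝ) (p : X) : Prop := ∀ h : X → ℝ, a.M.Sm h → b.Γ h p ≤ c * a.Γ h p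

/-- the slopes of the phases `φ` are controlled by the slopes of `u` -/
def Slope (a : St n X) (η : ℝ) (u φ : C → X → ℝ) (p : X) : Prop :=
  ∀ g, |φ g p| ≤ π / 2 →
    ‖a.M.grad (φ g) p‖ ≤ 1 / 2 * √(a.Γ (u g) p) * cos (φ g p) + √η * sin (φ g p) ^ 2 / 16

theorem Slope.mono {a : St n X} {η η' : ℝ} {u φ : C → X → ℝ} {p : X} (h : Slope a η u φ p)
    (hη : η ≤ η') : Slope a η' u φ p := fun g hg => (h g hg).trans <| by
  have := mul_le_mul_of_nonneg_right (Real.sqrt_le_sqrt hη) (sq_nonneg (sin (φ g p)))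
  linarith

theorem Slope.congr {a : St n X} {η : ℝ} {u φ φ' : C → X → ℝ} {p : X} (h : Slope a η u φ p)
    (e : ∀ g, φ' g =ᶠ[𝓝 p] φ g) : Slope a η u φ' p := fun g hg => by
  rw [(e g).self_of_nhds] at hg ⊢
  rw [a.norm_grad, St.Γ, gam_congr (e g) (e g), ← St.Γ, ← a.norm_grad]
  exact h g hg

variable [Fintype C] [Fintype C']

theorem Slope.pay {a : St n X} {η s v : ℝ} {u φ : C → X → ℝ} {p : X} (h : Slope a η u φ p)
    (hη : 0 < η) (hs : 0 < s) (hv : s + ∑ g, a.Γ (u g) p ≤ v) : Pay a.M η φ (v - s / 2) p := by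
  refine pay_of_sq a.M hη hs φ p (fun _ => 1) (fun g => √(a.Γ (u g) p))
    (fun g hg => ⟨by positivity, h g hg⟩) ?_
  simpa only [one_pow, one_mul, Real.sq_sqrt (gam_self_nonneg _ _)] using hv

/-- the class only sees the finite colours -/
theorem Cls.ext {a b : St n X} {η η' v v' : ℝ} {φ : C → X → ℝ} {φ' : C' → X → ℝ} {p : X}
    (h : Cls a.M η φ v p) (hη : η ≤ η') (hv : v ≤ v') (j : C → C') (hj : Injective j)
    (e : ∀ c, φ' (j c) = φ c) (hΓ : ∀ f, b.Γ f p = a.Γ f p)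
    (ho : ∀ c', |φ' c' p| ≤ π / 2 → ∃ c, j c = c') : Cls b.M η' φ' v' p := by
  classical
  have h1 : G.fin (ev φ' p) = (G.fin (ev φ p)).map ⟨j, hj⟩ := by
    ext c'
    rw [Finset.mem_map, G.mem_fin]
    refine ⟨fun h => ?_, ?_⟩
    · obtain ⟨c, rfl⟩ := ho c' h
      exact ⟨c, G.mem_fin.2 (by simpa only [ev, e] using h), rfl⟩
    · rintro ⟨c, hc, rfl⟩
      simpa only [ev, Embedding.coeFn_mk, e] using G.mem_fin.1 hc
  rcases h with h | ⟨β, h2, h3⟩
  · exact Or.inl (by rwa [Few, h1, Finset.card_map])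
  · refine Or.inr ⟨extend j β 0, fun c' hc' => ?_, ?_⟩
    · rw [h1, Finset.mem_map] at hc'
      obtain ⟨c, hc, rfl⟩ := hc'
      have h4 := h2 c hc
      have h5 := mul_le_mul_of_nonneg_right (Real.sqrt_le_sqrt hη) (sq_nonneg (sin (φ c p)))
      simp only [G.gr, G.rate, ev, Embedding.coeFn_mk, e, hj.extend_apply, St.norm_grad, hΓ] at h4 ⊢
      linarith
    · rw [h1, Finset.sum_map]
      simp only [Embedding.coeFn_mk, hj.extend_apply, Pi.zero_apply] at h3 ⊢
      linarith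

theorem few_ext {κ : Type} {m : ℕ} {a : C → ℝ} (h : Few m a) (j : C → κ) (S : Finset κ)
    (hS : ∀ k ∈ S, ∃ c, j c = k ∧ |a c| ≤ π / 2) : S.card ≤ m - 2 := by
  classical
  have : S ⊆ (G.fin a).image j := fun k hk => by
    obtain ⟨c, rfl, hc⟩ := hS k hk
    exact Finset.mem_image_of_mem j (G.mem_fin.2 hc)
  have h1 := (Finset.card_le_card this).trans Finset.card_image_le
  unfold Few at h
  omega

end Basic

/-- the result of a run, with phases -/
structure RunOut {n : ℕ} {X : Type} [MetricSpace X] [MeasurableSpace X] {G J : Type} [Fintype G]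
    [Fintype J] (θ : X → ℝ) (W s' C c η : ℝ) (f0 : J → X → ℝ) (a b : St n X)
    (u φ : G → X → ℝ) : Prop where
  same : Same a.M b.M {p | W ≤ θ p}
  fm : Fm b.M b.V
  V : ∀ p, W ≤ θ p → b.V p = a.V p
  su : ∀ g, a.M.Sm (u g)
  sφ : ∀ g, a.M.Sm (φ g)
  face : ∀ p, θ p ≤ 0 → ∃ g, π / 2 < φ g p ∧ ∀ q, -(π / 2) ≤ φ g q → dist p q ≤ C
  far : ∀ g p, W - 1 ≤ θ p → φ g p = -2
  cst : ∀ g p, W - 1 < θ p → ∃ r, u g =ᶠ[𝓝 p] fun _ => r
  le : ∀ p, θ p ≤ W → a.Le b c p
  pay : ∀ p, θ p ≤ W → s' + ∑ j, b.Γ (f0 j) p + ∑ g, b.Γ (u g) p ≤ b.V p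
  slope : ∀ p (e : St n X), e.M.ch = a.M.ch → b.Le e c p → Slope e η u φ p

/-- a run, with phases -/
def PRun (n : ℕ) (s s' C c W : ℝ) : Prop :=
  AllLen n fun _ _ _ X _ _ _ _ M0 => ∀ θ : X → ℝ, M0.Sm θ → (∀ p, M0.pre.gam θ θ p ≤ 1) →
    IsCompact {p | θ p ≤ W} → ∃ (G : Type) (_ : Fintype G), ∀ η : ℝ, 0 < η →
    ∀ (a : St n X) (J : Type) [Fintype J] (f0 : J → X → ℝ), a.M.ch = M0.ch → Fm a.M a.V →
      (∀ j, a.M.Sm (f0 j)) →
      (∀ f : X → ℝ, a.M.Sm f → ∀ p, θ p ≤ W → a.Γ f p ≤ c * M0.pre.gam f f p) →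
      (∀ p, θ p ≤ W → s + ∑ j, a.Γ (f0 j) p ≤ a.V p) →
      ∃ (b : St n X) (u φ : G → X → ℝ), RunOut θ W s' C c η f0 a b u φ

theorem prun {n : ℕ} {s s' C c : ℝ} (hc : 1 ≤ c) (h : FRun n s s' C c) :
    ∃ W, 1 < W ∧ PRun n s s' C c W := by
  obtain ⟨W, hW, h⟩ := h
  refine ⟨W, hW, fun ι _ _ X _ _ _ _ _ M0 h1 h2 θ h3 h4 h5 => ?_⟩
  obtain ⟨G, _, h⟩ := h ι X M0 h1 h2 θ h3 h4 h5
  refine ⟨G, inferInstance, fun η hη a J _ f0 a1 a2 a3 a4 a5 => ?_⟩
  obtain ⟨I, h⟩ := h a.ι a.M a.V J f0 a1 a2 a3 a4 a5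
  obtain ⟨b, Θ, hb, t1, -, t3, t4, t5⟩ := prof η (c * I) hη
  obtain ⟨κ, _, _, M', V', f, b1, b2, b3, b4, b5, b6, b7⟩ := h b
  have hθ : Continuous θ := h3.continuous
  have e1 : ∀ (e : St n X), e.M.ch = a.M.ch → ∀ g p, e.Γ (fun q => b * f g q) p =
      b ^ 2 * e.Γ (f g) p := fun e he g p => by
    have : e.M.Sm (f g) := by rw [Imm.Sm, he]; exact b4 g
    simp only [St.Γ, gam_apply, D_const_mul b (this.diffAt p), Finset.mul_sum]
    exact Finset.sum_congr rfl fun _ _ => by ring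
  have pi2 : π / 2 < 2 := by linarith [pi_lt_four]
  refine ⟨⟨κ, M', V'⟩, fun g q => b * f g q, fun g q => Θ (f g q), b1, b2, b3,
    fun g => (sm_const b).mul (b4 g), fun g => (b4 g).comp t1, fun p hp => ?_,
    fun g p hp => t4 _ (b5.far g p hp).le, fun g p hp => ⟨b * -1, ?_⟩,
    fun p hp h hh => b6 h hh p hp, fun p hp => ?_, fun p e he hle g hg => ?_⟩
  · obtain ⟨g, g1, g2⟩ := b5.face p hp
    refine ⟨g, by rwa [t3 _ g1], fun q hq => g2 q (lt_of_not_ge fun h' => ?_)⟩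
    rw [t4 _ h'] at hq
    linarith
  · filter_upwards [(isOpen_lt continuous_const hθ).mem_nhds hp] with q hq
    rw [b5.far g q (le_of_lt hq)]
  · simp only [e1 ⟨κ, M', V'⟩ b1.ch, ← Finset.mul_sum]
    exact (b7 p hp).2
  · have hp : θ p ≤ W := by
      by_contra h'
      rw [t4 _ (b5.far g p (by linarith [not_le.1 h'])).le, abs_neg, abs_two] at hg
      linarith
    have hs : e.M.Sm (f g) := by rw [Imm.Sm, he]; exact b4 g
    have h6 : e.Γ (f g) p ≤ c * I := (hle _ (b1.sm_iff.2 (b4 g))).trans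
      (mul_le_mul_of_nonneg_left ((b7 p hp).1 g) (by linarith))
    rw [grad_prof e.M hs t1 (EventuallyEq.refl _ _), e1 e he, Real.sqrt_mul (sq_nonneg b),
      Real.sqrt_sq hb.le]
    refine (t5 _ _ (Real.sqrt_nonneg _) (by rwa [Real.sq_sqrt (gam_self_nonneg _ _)]) hg).trans_eq ?_
    ring

end Crest.Agent.N228.T

end
end

-- ▼ part N228/T/Top2
section

/-!
# Row 228, the top layer (helper94): a run with its separator; a piece between two separators
-/

set_option autoImplicit false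
open MeasureTheory Set Filter Topology Function Real
open scoped ContDiff

noncomputable section

namespace Crest.Agent.N228.T
open Crest.Agent.N222 Crest.Agent.N222.Imm
open Crest.Agent.N228.G (Few Shr Shr1 ev)

/-- a smooth absolute value -/
theorem exists_abs {n : ℕ} {ι X : Type} [Fintype ι] [DecidableEq ι] [TopologicalSpace X]
    {M : Imm n ι X} {t : X → ℝ} (ht : M.Sm t) (h1 : ∀ p, M.pre.gam t t p ≤ 1) (a H : ℝ) :
    ∃ θ, M.Sm θ ∧ (∀ p, M.pre.gam θ θ p ≤ 1) ∧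
      ∀ p, |t p - a| - H ≤ θ p ∧ θ p ≤ |t p - a| - H + 1 := by
  have h0 : ∀ x : ℝ, 0 < 1 + (x - a) ^ 2 := fun x => by positivity
  have hs : ContDiff ℝ ∞ fun x : ℝ => √(1 + (x - a) ^ 2) - H :=
    (ContDiff.sqrt (by fun_prop) fun x => (h0 x).ne').sub contDiff_const
  refine ⟨fun p => √(1 + (t p - a) ^ 2) - H, ht.comp hs, fun p => ?_, fun p => ⟨?_, ?_⟩⟩
  · have hd : HasDerivAt (fun x : ℝ => √(1 + (x - a) ^ 2) - H)
        ((t p - a) / √(1 + (t p - a) ^ 2)) (t p) := by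
      have := ((((hasDerivAt_id (t p)).sub_const a).pow 2).const_add 1).sqrt (h0 _).ne'
      refine (this.sub_const H).congr_deriv ?_
      simp only [id, Pi.pow_apply]
      field_simp
      norm_num [mul_comm]
    have h2 : ((t p - a) / √(1 + (t p - a) ^ 2)) ^ 2 ≤ 1 := by
      rw [div_pow, Real.sq_sqrt (h0 _).le, div_le_one (h0 _)]
      linarith
    have h3 : M.pre.gam (fun p => √(1 + (t p - a) ^ 2) - H) (fun p => √(1 + (t p - a) ^ 2) - H) p =
        ((t p - a) / √(1 + (t p - a) ^ 2)) ^ 2 * M.pre.gam t t p := by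
      simp only [gam_apply, D_comp (ht.diffAt p) hd, Finset.mul_sum]
      exact Finset.sum_congr rfl fun _ _ => by ring
    rw [h3]
    exact mul_le_one₀ h2 (gam_self_nonneg _ _) (h1 p)
  · exact sub_le_sub_right (Real.abs_le_sqrt (by linarith)) H
  · have : √(1 + (t p - a) ^ 2) ≤ |t p - a| + 1 := Real.sqrt_le_iff.2 ⟨by positivity, by
      nlinarith [sq_abs (t p - a), abs_nonneg (t p - a)]⟩
    linarith

section

variable {n : ℕ} {X : Type} [TopologicalSpace X] {a b e : St n X} {c : ℝ} {p : X} {U : Set X}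

theorem St.Le.of_eq (hc : 1 ≤ c) (h : ∀ f, b.Γ f p = a.Γ f p) : a.Le b c p := fun f _ => by
  rw [h]
  exact le_mul_of_one_le_left (gam_self_nonneg _ _) hc

theorem St.Le.left (h : b.Le e c p) (hc : b.M.ch = a.M.ch) (h' : ∀ f, b.Γ f p = a.Γ f p) :
    a.Le e c p := fun f hf => by
  rw [← h']
  exact h f (by rw [Imm.Sm, hc]; exact hf)

end

/-- a run on `|t| ≤ H + W`, with a separator in `|t| ≤ Z` -/
structure OpOut {n : ℕ} {X : Type} [MetricSpace X] [MeasurableSpace X] {G : Type} [Fintype G]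
    (t : X → ℝ) (Z H W t0 C c η : ℝ) (a b : St n X) (u φ : G → X → ℝ) (ψ : X → ℝ) : Prop where
  same : Same a.M b.M {p | H + W ≤ |t p|}
  fm : Fm b.M b.V
  V : ∀ p, H + W ≤ |t p| → b.V p = a.V p
  su : ∀ g, a.M.Sm (u g)
  sφ : ∀ g, a.M.Sm (φ g)
  cψ : Continuous ψ
  face : ∀ p, |t p| ≤ H - 1 → ∃ g, π / 2 < φ g p ∧ ∀ q, -(π / 2) ≤ φ g q → dist p q ≤ C
  far : ∀ g p, H + W - 1 ≤ |t p| → φ g p = -2
  cst : ∀ g p, H + W - 1 < |t p| → ∃ r, u g =ᶠ[𝓝 p] fun _ => r
  le : ∀ p, Z ≤ |t p| → a.Le b c p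
  pay : ∀ p, Z ≤ |t p| → |t p| ≤ H + W + 1 → t0 + ∑ g, b.Γ (u g) p ≤ b.V p
  slope : ∀ p (e : St n X), Z ≤ |t p| → e.M.ch = a.M.ch → b.Le e c p → Slope e η u φ p
  cls : ∀ p, |t p| ≤ Z → Cls b.M η φ (b.V p - t0 / 8) p
  up : ∀ p, Z ≤ t p → ψ p = 2
  dn : ∀ p, t p ≤ -Z → ψ p = -2
  few : ∀ p, |ψ p| ≤ 1 → Few n (ev φ p)

/-- existence of runs with separators -/
def Op (n : ℕ) (Z H W t0 C c : ℝ) : Prop :=
  AllLen n fun _ _ _ X _ _ _ _ M0 => ∀ t : X → ℝ, M0.Sm t → (∀ p, M0.pre.gam t t p ≤ 1) →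
    (∀ r, IsCompact {p | t p ≤ r}) → ∃ (G : Type) (_ : Fintype G) (η0 : ℝ), 0 < η0 ∧
    ∀ η : ℝ, 0 < η → η ≤ η0 → ∀ a : St n X, Fm a.M a.V → Same M0 a.M {p | |t p| ≤ H + W + 1} →
      (∀ p, |t p| ≤ H + W + 1 → a.V p = 1) →
      ∃ (b : St n X) (u φ : G → X → ℝ) (ψ : X → ℝ), OpOut t Z H W t0 C c η a b u φ ψ

theorem op {n : ℕ} {W t0 C c : ℝ} (hc : 1 ≤ c) (h0 : 0 < t0) (h1 : t0 < 1) (hW : 1 < W)
    (hR : PRun n 1 t0 C c W) (hS : FSep n) :
    ∃ Z, 0 < Z ∧ ∀ H, Z + 1 ≤ H → Op n Z H W t0 C c := by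
  obtain ⟨Ws, hWs, hS⟩ := hS (t0 / 2) (half_pos h0)
  have c0 : 0 < c := by linarith
  refine ⟨c * Ws, by positivity, fun H hH ι _ _ X _ _ _ _ _ M0 m1 m2 t t1 t2 t3 => ?_⟩
  obtain ⟨θ, θ1, θ2, θ3⟩ := exists_abs t1 t2 0 H
  simp only [sub_zero] at θ3
  obtain ⟨G, _, hR⟩ := hR ι X M0 m1 m2 θ θ1 θ2 ((t3 (H + W)).of_isClosed_subset
    (isClosed_le θ1.continuous continuous_const) fun p (hp : θ p ≤ W) =>
      show t p ≤ _ by linarith [(θ3 p).1, le_abs_self (t p)])
  obtain ⟨η0, hη0, hS⟩ := hS (Fintype.card G)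
  refine ⟨G, inferInstance, η0, hη0, fun η hη hη' a a1 a2 a3 => ?_⟩
  have z1 : ∀ p, θ p ≤ W → |t p| ≤ H + W + 1 := fun p hp => by linarith [(θ3 p).1]
  obtain ⟨b, u, φ, r⟩ := hR η hη a Empty (fun j => j.elim) a2.ch a1 (fun j => j.elim)
    (fun f _ p hp => by
      rw [St.Γ, a2.gam' (z1 p hp)]
      exact le_mul_of_one_le_left (gam_self_nonneg _ _) hc)
    fun p hp => by simp [a3 p (z1 p hp)]
  have e1 : ∀ p, |c⁻¹ * t p| ≤ Ws ↔ |t p| ≤ c * Ws := fun p => by
    rw [abs_mul, abs_of_pos (inv_pos.2 c0), inv_mul_le_iff₀ c0]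
  have e2 : ∀ p, Ws ≤ |c⁻¹ * t p| ↔ c * Ws ≤ |t p| := fun p => by
    rw [abs_mul, abs_of_pos (inv_pos.2 c0), le_inv_mul_iff₀ c0]
  have s0 : M0.Sm fun p => c⁻¹ * t p := (sm_const _).mul t1
  have pay : ∀ p, θ p ≤ W → t0 + ∑ g, b.Γ (u g) p ≤ b.V p := fun p hp => by simpa using r.pay p hp
  obtain ⟨κ, _, _, M', V', ψ, φ', s1, s2, s3, s4, s5, s6, s7, s8, s9, s10⟩ :=
    hS η hη hη' b.ι X b.M b.V (fun p => c⁻¹ * t p) G φ r.fm (r.same.sm_iff.2 (a2.sm_iff.2 s0))
      (fun g => r.same.sm_iff.2 (r.sφ g)) le_rfl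
      (by simpa only [inv_mul_le_iff₀ c0] using t3 (c * Ws)) fun p hp => by
      have hp' : θ p ≤ W := by linarith [(e1 p).1 hp, (θ3 p).2]
      refine ⟨(r.le p hp' _ (a2.sm_iff.2 s0)).trans ?_, (r.slope p b r.same.ch
        (St.Le.of_eq hc fun _ => rfl)).pay hη h0 (pay p hp')⟩
      have h3 : M0.pre.gam (fun p => c⁻¹ * t p) (fun p => c⁻¹ * t p) p =
          c⁻¹ * (c⁻¹ * M0.pre.gam t t p) := by
        simp only [gam_apply, D_const_mul _ (t1.diffAt p), Finset.mul_sum]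
        exact Finset.sum_congr rfl fun _ _ => by ring
      rw [St.Γ, a2.gam' (z1 p hp'), h3, mul_inv_cancel_left₀ c0.ne']
      exact mul_le_one₀ (inv_le_one_of_one_le₀ hc) (gam_self_nonneg _ _) (t2 p)
  have g1 : ∀ p, c * Ws ≤ |t p| → ∀ f, St.Γ ⟨κ, M', V'⟩ f p = b.Γ f p := fun p hp f =>
    s1.gam' ((e2 p).2 hp) f f
  refine ⟨⟨κ, M', V'⟩, u, φ', ψ, (r.same.mono fun p (hp : H + W ≤ |t p|) => ?_).trans
      (s1.mono fun p (hp : H + W ≤ |t p|) => (e2 p).2 (by linarith)), s2, fun p hp => ?_, r.su,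
    fun g => r.same.sm_iff.1 (s4 g), s3, fun p hp => ?_, fun g p hp => ?_,
    fun g p hp => r.cst g p (by linarith [(θ3 p).1]), fun p hp f hf => ?_, fun p hp hp' => ?_,
    fun p e hp he hl => ?_, fun p hp => ?_, fun p hp => s7 p ((le_inv_mul_iff₀ c0).2 hp),
    fun p hp => s8 p ((inv_mul_le_iff₀ c0).2 (by linarith)), s10⟩
  · exact show W ≤ θ p by linarith [(θ3 p).1]
  · exact (s6 p ((e2 p).2 (by linarith))).1.trans (r.V p (by linarith [(θ3 p).1]))
  · obtain ⟨g, g1, g2⟩ := r.face p (by linarith [(θ3 p).2])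
    exact ⟨g, (s5 g p).1 g1, fun q hq => g2 q (le_of_not_gt fun h => hq.not_gt ((s5 g q).2 h))⟩
  · exact ((s6 p ((e2 p).2 (by linarith))).2 g).self_of_nhds.trans
      (r.far g p (by linarith [(θ3 p).1]))
  · rw [g1 p hp]
    rcases le_total (θ p) W with h | h
    · exact r.le p h f hf
    · exact St.Le.of_eq hc (fun f => r.same.gam' h f f) f hf
  · simp only [g1 p hp]
    rw [(s6 p ((e2 p).2 hp)).1]
    rcases le_total (θ p) W with h | h
    · exact pay p h
    · rw [r.V p h, a3 p hp', Finset.sum_eq_zero fun g _ =>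
        (r.cst g p (by linarith)).elim fun _ h => b.Γ_const h]
      linarith
  · exact (r.slope p e he (hl.left s1.ch (g1 p hp))).congr (s6 p ((e2 p).2 hp)).2
  · have := s9 p ((e1 p).2 hp)
    rwa [show t0 / 2 / 4 = t0 / 8 by ring] at this

/-- the colours of a gap and the final phases of a piece -/
structure PcOut (n : ℕ) {X : Type} [MetricSpace X] {G G1 G' : Type} [Fintype G] [Fintype G1]
    [Fintype G'] (t : X → ℝ) (P W W' C : ℝ) (φ : G → X → ℝ) (φ1 : G1 → X → ℝ) (ψ ψ1 : X → ℝ)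
    (φ' : G' → X → ℝ) (Φ : G ⊕ G1 ⊕ G' → X → ℝ) : Prop where
  cont : ∀ g, Continuous (φ' g)
  face : ∀ p, |t p - P| ≤ W + 2 → ∃ g, π / 2 < φ' g p ∧ ∀ q, -(π / 2) ≤ φ' g q → dist p q ≤ C
  far : ∀ g p, W + W' + 2 ≤ |t p - P| → φ' g p = -2
  cΦ : ∀ k, ContinuousOn (Φ k) {p | 0 ≤ ψ p ∧ ψ1 p ≤ 0}
  shr : ∀ k p, 0 ≤ ψ p → ψ1 p ≤ 0 → Shr1 (Sum.elim φ (Sum.elim φ1 φ') k p) (Φ k p)
  few : ∀ p, 0 ≤ ψ p → ψ1 p ≤ 0 → Few n (ev Φ p)

theorem piece {n : ℕ} {Z W W' t0 t1 C c : ℝ} (hn : 2 ≤ n) (hc : 1 ≤ c) (h0 : 0 < t0) (h1 : 0 < t1)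
    (hW : 1 < W) (hW' : 1 < W') (hZ : 0 < Z) (hR : PRun n t0 t1 C c W') (hE : FEnd n) :
    AllLen n fun _ _ _ X _ _ _ _ M0 => ∀ t : X → ℝ, M0.Sm t → (∀ p, M0.pre.gam t t p ≤ 1) →
    (∀ r, IsCompact {p | t p ≤ r}) → ∀ H P : ℝ, H = Z + W' + 3 → P = H + W + 1 →
    ∃ (G' : Type) (_ : Fintype G'), ∀ (G G1 : Type) [Fintype G] [Fintype G1], ∃ ηE : ℝ, 0 < ηE ∧
    ∀ (η η1 : ℝ) (a0 a1 a2 : St n X) (u φ : G → X → ℝ) (u1 φ1 : G1 → X → ℝ) (ψ ψ1 t' : X → ℝ),
      η ≤ ηE → η1 ≤ ηE → (∀ p, t' p = t p - 2 * P) → Same M0 a0.M {p | 0 ≤ t p} →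
      OpOut t Z H W t0 C c η a0 a1 u φ ψ → OpOut t' Z H W t0 C c η1 a1 a2 u1 φ1 ψ1 →
      ∃ φ' Φ, PcOut n (G' := G') t P W W' C φ φ1 ψ ψ1 φ' Φ := by
  intro ι _ _ X _ _ _ _ _ M0 m1 m2 t t1' t2 t3 H P hH hP
  obtain ⟨θ, θ1, θ2, θ3⟩ := exists_abs t1' t2 P (W + 3)
  obtain ⟨G', _, hR⟩ := hR ι X M0 m1 m2 θ θ1 θ2 ((t3 (2 * P)).of_isClosed_subset
    (isClosed_le θ1.continuous continuous_const) fun p (hp : θ p ≤ W') =>
      show t p ≤ _ by linarith [(θ3 p).1, le_abs_self (t p - P)])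
  refine ⟨G', inferInstance, fun G G1 _ _ => ?_⟩
  have s0 : 0 < min t0 t1 := lt_min h0 h1
  obtain ⟨η', hη', hE⟩ := hE (Fintype.card (G ⊕ G1 ⊕ G')) (min t0 t1 / 8) (by positivity)
  refine ⟨η', hη', fun η η1 a0 a1 a2 u φ u1 φ1 ψ ψ1 t' e0 e1 ht' f0 o o1 => ?_⟩
  have pi2 : π / 2 < 2 := by linarith [pi_lt_four]
  have nf : ∀ {x : ℝ}, x = -2 → ¬|x| ≤ π / 2 := fun h h' => by
    rw [h, abs_neg, abs_two] at h'
    linarith
  have z1 : ∀ p, θ p ≤ W' → Z + 1 ≤ t p ∧ t p ≤ 2 * P - Z - 1 := fun p hp => by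
    have := abs_le.1 (show |t p - P| ≤ W + W' + 3 by linarith [(θ3 p).1])
    constructor <;> linarith [this.1, this.2]
  have lo : ∀ p, t p ≤ P → H + W + 1 ≤ |t' p| := fun p hp => by
    linarith [neg_abs_le (t' p), ht' p]
  have g12 : ∀ p, t p ≤ P → ∀ f, a2.Γ f p = a1.Γ f p := fun p hp f =>
    o1.same.gam' (show H + W ≤ |t' p| by linarith [lo p hp]) f f
  have hi' : ∀ p, t p ≤ 2 * P - Z → Z ≤ |t' p| := fun p hp => by linarith [neg_abs_le (t' p), ht' p]
  have key : ∀ p, Z ≤ t p → t p ≤ 2 * P - Z → t0 + ∑ j, a2.Γ (Sum.elim u u1 j) p ≤ a2.V p := by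
    intro p hp hp'
    simp only [Fintype.sum_sum_type, Sum.elim_inl, Sum.elim_inr]
    rcases le_total (t p) P with h | h
    · rw [Finset.sum_eq_zero (s := Finset.univ) (f := fun g => a2.Γ (u1 g) p) fun g _ =>
        (o1.cst g p (by linarith [lo p h])).elim fun _ h => a2.Γ_const h, add_zero,
        o1.V p (by linarith [lo p h])]
      simp only [g12 p h]
      exact o.pay p (hp.trans (le_abs_self _)) (abs_le.2 ⟨by linarith, by linarith⟩)
    · rw [Finset.sum_eq_zero (s := Finset.univ) (f := fun g => a2.Γ (u g) p) fun g _ =>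
        (o.cst g p (by linarith [le_abs_self (t p)])).elim fun _ h => a2.Γ_const h, zero_add]
      exact o1.pay p (hi' p hp') (abs_le.2 ⟨by linarith [ht' p], by linarith [ht' p]⟩)
  have c2 : a2.M.ch = a0.M.ch := o1.same.ch.trans o.same.ch
  have sm0 : ∀ {f : X → ℝ}, a0.M.Sm f → a2.M.Sm f := fun hf => o1.same.sm_iff.2 (o.same.sm_iff.2 hf)
  obtain ⟨b, u', φ', r⟩ := hR η' hη' a2 (G ⊕ G1) (Sum.elim u u1) (c2.trans f0.ch) o1.fm
    (by rintro (g | g); exacts [sm0 (o.su g), o1.same.sm_iff.2 (o1.su g)])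
    (fun f hf p hp => by
      obtain ⟨z2, z3⟩ := z1 p hp
      rw [← f0.gam' (show 0 ≤ t p by linarith)]
      rcases le_total (t p) P with h | h
      · rw [g12 p h]
        exact o.le p (by linarith [le_abs_self (t p)]) f (o.same.sm_iff.1 (o1.same.sm_iff.1 hf))
      · rw [← o.same.gam' (show H + W ≤ |t p| by linarith [le_abs_self (t p)])]
        exact o1.le p (hi' p (by linarith)) f (o1.same.sm_iff.1 hf))
    fun p hp => key p (by linarith [(z1 p hp).1]) (by linarith [(z1 p hp).2])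
  have loc : ∀ p, 0 ≤ ψ p → ψ1 p ≤ 0 → -Z < t p ∧ t p < 2 * P + Z := fun p hp hp' =>
    ⟨lt_of_not_ge fun h => by linarith [o.dn p h], lt_of_not_ge fun h => by
      linarith [o1.up p (by linarith [ht' p])]⟩
  have fθ : ∀ p, |t p| ≤ Z ∨ |t' p| ≤ Z → W' + 1 ≤ θ p := fun p hp => by
    rcases hp with hp | hp
    · linarith [(θ3 p).1, neg_abs_le (t p - P), le_abs_self (t p)]
    · linarith [(θ3 p).1, le_abs_self (t p - P), neg_abs_le (t' p), ht' p]
  have only : ∀ p, |t p| ≤ Z → ∀ k : G ⊕ G1 ⊕ G', |Sum.elim φ (Sum.elim φ1 φ') k p| ≤ π / 2 →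
      ∃ g, Sum.inl g = k := by
    rintro p hp (g | g | g) h
    · exact ⟨g, rfl⟩
    · exact absurd h (nf (o1.far g p (by linarith [lo p (by linarith [le_abs_self (t p)])])))
    · exact absurd h (nf (r.far g p (by linarith [fθ p (.inl hp)])))
  have only1 : ∀ p, |t' p| ≤ Z → ∀ k : G ⊕ G1 ⊕ G', |Sum.elim φ (Sum.elim φ1 φ') k p| ≤ π / 2 →
      ∃ g, Sum.inr (Sum.inl g) = k := by
    rintro p hp (g | g | g) h
    · exact absurd h (nf (o.far g p (by linarith [le_abs_self (t p), neg_abs_le (t' p), ht' p])))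
    · exact ⟨g, rfl⟩
    · exact absurd h (nf (r.far g p (by linarith [fθ p (.inr hp)])))
  have le2 : ∀ p, a2.Le b c p := fun p => (le_total (θ p) W').elim (r.le p) fun h =>
    St.Le.of_eq hc fun f => r.same.gam' h f f
  have m0 := min_le_left t0 t1
  have m1' := min_le_right t0 t1
  obtain ⟨Φ, Φ1, Φ2, Φ3⟩ := hE b.ι X b.M b.V (G ⊕ G1 ⊕ G') (Sum.elim φ (Sum.elim φ1 φ'))
    {p | 0 ≤ ψ p ∧ ψ1 p ≤ 0} r.fm
    (by
      rintro (g | g | g)
      exacts [r.same.sm_iff.2 (sm0 (o.sφ g)), r.same.sm_iff.2 (o1.same.sm_iff.2 (o1.sφ g)),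
        r.same.sm_iff.2 (r.sφ g)]) le_rfl
    ((t3 (2 * P + Z)).of_isClosed_subset ((isClosed_le continuous_const o.cψ).inter
      (isClosed_le o1.cψ continuous_const)) fun p hp => (loc p hp.1 hp.2).2.le)
    (fun p hp => by
      obtain ⟨l1, l2⟩ := loc p hp.1 hp.2
      by_cases h : |t p| ≤ Z
      · have h2 : W' ≤ θ p := by linarith [fθ p (.inl h)]
        have h3 : t p ≤ P := by linarith [le_abs_self (t p)]
        exact (o.cls p h).ext e0 (by linarith [r.V p h2, o1.V p (by linarith [lo p h3])])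
          Sum.inl Sum.inl_injective (fun _ => rfl)
          (fun f => (r.same.gam' h2 f f).trans (g12 p h3 f)) (only p h)
      by_cases h' : |t' p| ≤ Z
      · have h2 : W' ≤ θ p := by linarith [fθ p (.inr h')]
        exact (o1.cls p h').ext e1 (by linarith [r.V p h2]) (fun g => Sum.inr (Sum.inl g))
          (Sum.inr_injective.comp Sum.inl_injective) (fun _ => rfl)
          (fun f => r.same.gam' h2 f f) (only1 p h')
      have l3 : Z ≤ t p := le_of_not_gt fun h2 => h (abs_le.2 ⟨l1.le, h2.le⟩)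
      have l4 : t p ≤ 2 * P - Z := le_of_not_gt fun h2 =>
        h' (abs_le.2 ⟨by linarith [ht' p], by linarith [ht' p]⟩)
      have sl : Slope b η' (Sum.elim u (Sum.elim u1 u')) (Sum.elim φ (Sum.elim φ1 φ')) p := by
        rintro (g | g | g) hg
        · rcases le_total (t p) P with h2 | h2
          · exact (o.slope p b (not_le.1 h).le (r.same.ch.trans c2)
              ((le2 p).left o1.same.ch (g12 p h2))).mono e0 g hg
          · exact absurd hg (nf (o.far g p (by linarith [le_abs_self (t p)])))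
        · exact (o1.slope p b (not_le.1 h').le (r.same.ch.trans o1.same.ch) (le2 p)).mono e1 g hg
        · exact r.slope p b r.same.ch (St.Le.of_eq hc fun _ => rfl) g hg
      refine Or.inr (N228.G.Ok.mono (sl.pay hη' s0 (v := b.V p) ?_) (by linarith) (fun _ _ => le_rfl)
        fun _ _ => le_rfl)
      rcases le_total (θ p) W' with h2 | h2
      · have := r.pay p h2
        simp only [Fintype.sum_sum_type, Sum.elim_inl, Sum.elim_inr] at this ⊢
        linarith
      · have := key p l3 l4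
        simp only [Fintype.sum_sum_type, Sum.elim_inl, Sum.elim_inr] at this ⊢
        rw [Finset.sum_eq_zero (s := Finset.univ) (f := fun g => b.Γ (u' g) p) fun g _ =>
          (r.cst g p (by linarith)).elim fun _ h => b.Γ_const h, r.V p h2]
        simp only [show ∀ f, b.Γ f p = a2.Γ f p from fun f => r.same.gam' h2 f f]
        linarith)
    fun p hp hi => by
      have h2 : ψ p = 0 ∨ ψ1 p = 0 := by
        by_contra h
        rw [not_or] at h
        exact hi (mem_interior_iff_mem_nhds.2 (mem_of_superset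
          (((isOpen_lt continuous_const o.cψ).inter (isOpen_lt o1.cψ continuous_const)).mem_nhds
            ⟨hp.1.lt_of_ne' h.1, hp.2.lt_of_ne h.2⟩) fun q hq => ⟨le_of_lt hq.1, le_of_lt hq.2⟩))
      suffices (N228.G.fin (ev (Sum.elim φ (Sum.elim φ1 φ')) p)).card ≤ n - 2 by
        unfold Few
        omega
      rcases h2 with h2 | h2
      · have h3 : |t p| ≤ Z := abs_le.2 ⟨(loc p hp.1 hp.2).1.le, le_of_not_ge fun h => by
          linarith [o.up p h]⟩
        refine few_ext (o.few p (by simp [h2])) Sum.inl _ fun k hk => ?_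
        have hk' := N228.G.mem_fin.1 hk
        obtain ⟨g, rfl⟩ := only p h3 k hk'
        exact ⟨g, rfl, hk'⟩
      · have h3 : |t' p| ≤ Z := abs_le.2 ⟨le_of_not_ge fun h => by linarith [o1.dn p h], by
          linarith [(loc p hp.1 hp.2).2, ht' p]⟩
        refine few_ext (o1.few p (by simp [h2])) (fun g => Sum.inr (Sum.inl g)) _ fun k hk => ?_
        have hk' := N228.G.mem_fin.1 hk
        obtain ⟨g, rfl⟩ := only1 p h3 k hk'
        exact ⟨g, rfl, hk'⟩
  exact ⟨φ', Φ, fun g => (r.sφ g).continuous, fun p hp => r.face p (by linarith [(θ3 p).2]),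
    fun g p hp => r.far g p (by linarith [(θ3 p).1]), Φ1, fun k p h h' => Φ2 k p ⟨h, h'⟩,
    fun p h h' => Φ3 p ⟨h, h'⟩⟩

end Crest.Agent.N228.T

end
end

-- ▼ part N228/O/Cube
section

/-!
# Row 228, outer layer (helper62): the cover given by the skeleton of a cube complex

`cube01`, `cube` : continuous signs with at most `k` undecided ones at every point give a cover of
multiplicity `≤ k + 1` whose mesh only depends on the distance between a point of a positive face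
and the points outside the negative face.
-/

set_option autoImplicit false
open Set Filter Topology Function

namespace Crest.Agent.N228

/-- pigeonhole: `k` numbers miss one of `k + 1` open intervals -/
theorem Cube.exists_gap (k : ℕ) (S : Finset ℝ) (hS : S.card ≤ k) {δ : ℝ} (hδ : 0 < δ) :
    ∃ j : ℕ, j ≤ k ∧ ∀ x ∈ S, x ≤ j * δ ∨ (j + 1) * δ ≤ x := by
  classical
  by_contra h
  push Not at h
  choose! f hf h1 h2 using h
  have hinj : Set.InjOn f (Finset.range (k + 1) : Set ℕ) := by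
    intro i hi j hj hij
    have hi' : i ≤ k := Nat.lt_succ_iff.1 (by simpa using hi)
    have hj' : j ≤ k := Nat.lt_succ_iff.1 (by simpa using hj)
    have a1 := h1 i hi'
    have a2 := h2 i hi'
    have a3 := h1 j hj'
    have a4 := h2 j hj'
    rw [hij] at a1 a2
    have b1 : (i : ℝ) < j + 1 := lt_of_mul_lt_mul_right (a1.trans a4) hδ.le
    have b2 : (j : ℝ) < i + 1 := lt_of_mul_lt_mul_right (a3.trans a2) hδ.le
    have c1 : i < j + 1 := by exact_mod_cast b1
    have c2 : j < i + 1 := by exact_mod_cast b2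
    omega
  have := Finset.card_le_card_of_injOn f (s := Finset.range (k + 1)) (t := S)
    (fun i hi => hf i (Nat.lt_succ_iff.1 (by simpa using hi))) hinj
  rw [Finset.card_range] at this
  omega

/-- the cover, for functions with values in `[0, 1]` -/
theorem cube01 (X : Type) [MetricSpace X] (k : ℕ) (C : ℝ) (κ : Type) (t : κ → X → ℝ)
    (hc : ∀ c, Continuous (t c)) (h0 : ∀ c p, 0 ≤ t c p) (h1 : ∀ c p, t c p ≤ 1)
    (hl : LocallyFinite fun c => {p | 0 < t c p})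
    (hp : ∀ p, ∃ c, t c p = 1 ∧ ∀ q, 0 < t c q → dist p q ≤ C)
    (hk : ∀ p (A : Finset κ), (∀ c ∈ A, 0 < t c p ∧ t c p < 1) → A.card ≤ k) : Cov X k C := by
  classical
  set δ : ℝ := 1 / ((k : ℝ) + 1) with hδ
  have hk1 : (0 : ℝ) < (k : ℝ) + 1 := by positivity
  have δ0 : 0 < δ := by positivity
  have δ1 : ((k : ℝ) + 1) * δ = 1 := by rw [hδ]; field_simp
  have hfin : ∀ p, {c | 0 < t c p}.Finite := fun p => hl.point_finite p
  -- the undecided values
  set Mid : X → Finset κ := fun p => (hfin p).toFinset.filter fun c => t c p < 1 with hMid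
  have mMid : ∀ p c, c ∈ Mid p ↔ 0 < t c p ∧ t c p < 1 := fun p c => by simp [hMid]
  have cMid : ∀ p, (Mid p).card ≤ k := fun p => hk p _ fun c h => (mMid p c).1 h
  refine ⟨{A : Finset κ // A.Nonempty}, fun A => {p | ∀ c ∈ A.1, δ ≤ t c p ∧
    ∀ c', c' ∉ A.1 → t c' p + δ ≤ t c p}, fun A => ?_, fun p => ?_, fun p => ?_, fun p s hs => ?_,
    fun A p hp' q hq => ?_⟩
  · simp only [setOf_forall, setOf_and]
    refine isClosed_iInter fun c => isClosed_iInter fun _ => IsClosed.inter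
      (isClosed_le continuous_const (hc c)) (isClosed_iInter fun c' => isClosed_iInter fun _ =>
        isClosed_le ((hc c').add continuous_const) (hc c))
  · obtain ⟨N, hN, hf⟩ := hl p
    refine ⟨N, hN, ?_⟩
    refine Finite.of_finite_image (f := fun A => (A.1 : Finset κ)) ?_ Subtype.val_injective.injOn
    refine (hf.toFinset.powerset.finite_toSet).subset ?_
    rintro _ ⟨A, ⟨q, hq, hqN⟩, rfl⟩
    simp only [Finset.coe_powerset, mem_preimage, mem_powerset_iff, Finite.coe_toFinset]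
    exact fun c hc' => ⟨q, δ0.trans_le (hq c hc').1, hqN⟩
  · obtain ⟨j, hj, hg⟩ := Cube.exists_gap k ((Mid p).image fun c => t c p)
      (Finset.card_image_le.trans (cMid p)) δ0
    have hj' : (j : ℝ) ≤ k := by exact_mod_cast hj
    have j0 : (0 : ℝ) ≤ j := Nat.cast_nonneg j
    have e1 : ((j : ℝ) + 1) * δ ≤ 1 := by nlinarith
    have e0 : δ ≤ ((j : ℝ) + 1) * δ := by nlinarith
    obtain ⟨c0, hc0, -⟩ := hp p
    have mA : ∀ c, c ∈ (hfin p).toFinset.filter (fun c => ((j : ℝ) + 1) * δ ≤ t c p) ↔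
        ((j : ℝ) + 1) * δ ≤ t c p := fun c => by
      simp only [Finset.mem_filter, Finite.mem_toFinset, mem_setOf_eq, and_iff_right_iff_imp]
      exact fun h => δ0.trans_le (e0.trans h)
    refine ⟨⟨_, c0, (mA c0).2 (hc0 ▸ e1)⟩, fun c hc' => ?_⟩
    have a1 := (mA c).1 hc'
    refine ⟨e0.trans a1, fun c' hc'' => ?_⟩
    have a2 : t c' p < ((j : ℝ) + 1) * δ := not_le.1 fun h => hc'' ((mA c').2 h)
    have a3 : t c' p ≤ j * δ := by
      rcases (h0 c' p).eq_or_lt with h | h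
      · rw [← h]; positivity
      · rcases hg _ (Finset.mem_image_of_mem _ ((mMid p c').2 ⟨h, a2.trans_le e1⟩)) with h' | h'
        · exact h'
        · exact absurd h' (not_le.2 a2)
    linarith
  · have hex : ∀ A : {A : Finset κ // A.Nonempty}, ∃ c ∈ A.1, ∀ c' ∈ A.1, t c p ≤ t c' p :=
      fun A => A.1.exists_min_image (fun c => t c p) A.2
    choose g g1 g2 using hex
    have key : ∀ A ∈ s, ∀ c, c ∈ A.1 ↔ t (g A) p ≤ t c p := fun A hA c =>
      ⟨g2 A c, fun h => by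
        by_contra hc'
        have := (hs A hA _ (g1 A)).2 c hc'
        linarith⟩
    have := Finset.card_le_card_of_injOn (fun A => t (g A) p) (s := s)
      (t := insert 1 ((Mid p).image fun c => t c p)) (fun A hA => ?_) (fun A hA B hB hAB => ?_)
    · exact this.trans ((Finset.card_insert_le _ _).trans
        (Nat.succ_le_succ (Finset.card_image_le.trans (cMid p))))
    · rcases (h1 (g A) p).eq_or_lt with h | h
      · simp [h]
      · exact Finset.mem_coe.2 (Finset.mem_insert_of_mem (Finset.mem_image_of_mem _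
          ((mMid p _).2 ⟨δ0.trans_le (hs A hA _ (g1 A)).1, h⟩)))
    · refine Subtype.ext (Finset.ext fun c => ?_)
      rw [key A hA, key B hB, show t (g A) p = t (g B) p from hAB]
  · obtain ⟨c0, hc0, hd⟩ := hp p
    have hA : c0 ∈ A.1 := by
      by_contra h
      obtain ⟨c, hc'⟩ := A.2
      have := (hp' c hc').2 c0 h
      have := h1 c p
      linarith
    exact hd q (δ0.trans_le (hq c0 hA).1)

/-- the cover, for signs: `s c ≥ a` is the positive face, `s c ≤ -a` the negative face -/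
theorem cube (X : Type) [MetricSpace X] (k : ℕ) (C a : ℝ) (ha : 0 < a) (κ : Type)
    (s : κ → X → ℝ) (hc : ∀ c, Continuous (s c)) (hl : LocallyFinite fun c => {p | -a < s c p})
    (hp : ∀ p, ∃ c, a ≤ s c p ∧ ∀ q, -a < s c q → dist p q ≤ C)
    (hk : ∀ p (A : Finset κ), (∀ c ∈ A, |s c p| < a) → A.card ≤ k) : Cov X k C := by
  have e0 : ∀ x : ℝ, 0 < max 0 (min 1 ((x + a) / (2 * a))) ↔ -a < x := fun x => by
    rw [lt_max_iff, lt_min_iff, div_pos_iff_of_pos_right (by positivity)]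
    constructor
    · rintro (h | h)
      · exact absurd h (lt_irrefl _)
      · linarith [h.2]
    · exact fun h => Or.inr ⟨one_pos, by linarith⟩
  have e1 : ∀ x : ℝ, max 0 (min 1 ((x + a) / (2 * a))) < 1 → x < a := fun x h => by
    rw [max_lt_iff, min_lt_iff, div_lt_one (by positivity)] at h
    rcases h.2 with h | h
    · exact absurd h (lt_irrefl _)
    · linarith
  refine cube01 X k C κ (fun c p => max 0 (min 1 ((s c p + a) / (2 * a)))) (fun c => ?_)
    (fun _ _ => le_max_left _ _) (fun _ _ => max_le zero_le_one (min_le_left _ _)) ?_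
    (fun p => ?_) fun p A hA => hk p A fun c hc' => ?_
  · have := hc c
    fun_prop
  · simpa only [e0] using hl
  · obtain ⟨c, h1, h2⟩ := hp p
    refine ⟨c, ?_, fun q hq => h2 q ((e0 _).1 hq)⟩
    have : 1 ≤ (s c p + a) / (2 * a) := by rw [le_div_iff₀ (by positivity)]; linarith
    simp only [min_eq_left this, max_eq_right (zero_le_one (α := ℝ))]
  · exact abs_lt.2 ⟨(e0 _).1 (hA c hc').1, e1 _ (hA c hc').2⟩

end Crest.Agent.N228
end

-- ▼ part N228/G/Path
section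

/-!
# Row 228, block G (helper15): more coordinates, equal metrics, concatenation of paths
-/

set_option autoImplicit false
set_option linter.unusedSectionVars false
open MeasureTheory Set Filter Topology Function Metric Real
open scoped ContDiff InnerProductSpace RealInnerProductSpace
open Crest.Agent.N222

noncomputable section

namespace Crest.Agent.N228.G

open Crest.Agent.N228.J (JC)

variable {d : ℕ} {ι ι' ι'' κ κ' : Type} [Fintype ι] [Fintype ι'] [Fintype ι''] [Fintype κ]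
  [Fintype κ'] {X : Type} [TopologicalSpace X] {M : Imm d ι X} {N : Imm d ι' X} {N' : Imm d ι'' X}
  {y y' : κ → X → ℝ} {u : X → ℝ}

theorem le_of_sq_le_sq₀ {a b : ℝ} (h : a ^ 2 ≤ b ^ 2) (hb : 0 ≤ b) : a ≤ b :=
  (le_abs_self a).trans (abs_le_of_sq_le_sq' h hb |> fun h => abs_le.2 h)

/-! ### more coordinates -/



theorem xt_inl (M : Imm d ι X) (y : κ → X → ℝ) (p : X) (a : ι) :
    (M.xt y).x p (Sum.inl a) = M.x p a := rfl

theorem xt_inr (hy : ∀ i, M.Sm (y i)) (p : X) (i : κ) : (M.xt y).x p (Sum.inr i) = y i p :=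
  if_pos hy



/-- `df(v) df(w)` in the chart at `p` -/
def dd (M : Imm d ι X) (f : X → ℝ) (p : X) (z v w : E (Fin d)) : ℝ :=
  fderiv ℝ (f ∘ (M.ch p).symm) z v * fderiv ℝ (f ∘ (M.ch p).symm) z w

theorem inner_eq_sum (hc : N.ch = M.ch) {p : X} {z : E (Fin d)} (hz : z ∈ (M.ch p).target)
    (v w : E (Fin d)) :
    ⟪fderiv ℝ (N.x ∘ (M.ch p).symm) z v, fderiv ℝ (N.x ∘ (M.ch p).symm) z w⟫ =
      ∑ a, dd M (fun q => N.x q a) p z v w := by
  classical
  rw [PiLp.inner_apply]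
  refine Finset.sum_congr rfl fun a _ => ?_
  rw [← Imm.fderiv_coord (hc ▸ N.isChart p) hz, ← Imm.fderiv_coord (hc ▸ N.isChart p) hz]
  simp only [dd, RCLike.inner_apply, conj_trivial, mul_comm]
  rfl

theorem dd_const (c : ℝ) (p : X) (z v w : E (Fin d)) : dd M (fun _ => c) p z v w = 0 := by
  rw [dd, show (fun _ : X => c) ∘ (M.ch p).symm = fun _ => c from rfl, fderiv_fun_const]
  simp


theorem sum_dd_xt (hc : N.ch = M.ch) (hy : ∀ i, M.Sm (y i)) (p : X) (z v w : E (Fin d)) :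
    ∑ a, dd M (fun q => (N.xt y).x q a) p z v w =
      ∑ a, dd M (fun q => N.x q a) p z v w + ∑ i, dd M (y i) p z v w := by
  have hy' : ∀ i, N.Sm (y i) := fun i => by rw [Imm.Sm, hc]; exact hy i
  simp only [Fintype.sum_sum_type, xt_inl, xt_inr hy']

theorem same_of_dd (hc : N.ch = M.ch) (h : ∀ p, ∀ z ∈ (M.ch p).target, ∀ v w,
    ∑ a, dd M (fun q => M.x q a) p z v w = ∑ a, dd M (fun q => N.x q a) p z v w) : Same M N :=
  ⟨hc.symm, fun p z hz => by
    ext i j
    simp only [gram, Matrix.of_apply]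
    rw [inner_eq_sum rfl hz, inner_eq_sum hc hz, h p z hz]⟩

theorem Same.dd (h : Same M N) (p : X) {z : E (Fin d)} (hz : z ∈ (M.ch p).target)
    (v w : E (Fin d)) :
    ∑ a, dd M (fun q => M.x q a) p z v w = ∑ a, dd M (fun q => N.x q a) p z v w := by
  rw [← inner_eq_sum rfl hz, ← inner_eq_sum h.1.symm hz, ← gram_sum, ← gram_sum, h.2 p hz]

namespace Same

theorem refl (M : Imm d ι X) : Same M M := ⟨rfl, fun _ _ _ => rfl⟩

theorem symm (h : Same M N) : Same N M := ⟨h.1.symm, fun p => h.1 ▸ (h.2 p).symm⟩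

theorem trans (h : Same M N) (h' : Same N N') : Same M N' :=
  ⟨h.1.trans h'.1, fun p => (h.2 p).trans (h.1 ▸ h'.2 p)⟩

theorem sm (h : Same M N) {F : Type} [NormedAddCommGroup F] [NormedSpace ℝ F] {f : X → F}
    (hf : M.Sm f) : N.Sm f := by rw [Imm.Sm, ← h.1]; exact hf

theorem xt (h : Same M N) (hy : ∀ i, M.Sm (y i)) : Same (M.xt y) (N.xt y) :=
  same_of_dd h.1.symm fun p z hz v w =>
    (sum_dd_xt rfl hy p z v w).trans <| ((congrArg (· + _) (h.dd p hz v w))).trans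
      (sum_dd_xt h.1.symm hy p z v w).symm

end Same

/-- constant coordinates do not change the metric -/
theorem same_xt_const (M : Imm d ι X) (a : κ → ℝ) (h : ∀ i p, y i p = a i) : Same (M.xt y) M := by
  obtain rfl : y = fun i _ => a i := funext fun i => funext (h i)
  exact Same.symm <| same_of_dd rfl fun p z _ v w => by
    rw [sum_dd_xt rfl fun _ => Imm.sm_const _]; simp [dd_const]

theorem sm_elim2 {y' : κ' → X → ℝ} (hy : ∀ i, M.Sm (y i)) (hy' : ∀ i, M.Sm (y' i)) :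
    ∀ i, M.Sm (Sum.elim y y' i) := by rintro (i | i); exacts [hy i, hy' i]

theorem same_xt_xt {y' : κ' → X → ℝ} (hy : ∀ i, M.Sm (y i)) (hy' : ∀ i, M.Sm (y' i)) :
    Same (M.xt (Sum.elim y y')) ((M.xt y).xt y') :=
  same_of_dd rfl fun p z _ v w => by
    have h1 := sum_dd_xt (M := M) rfl (sm_elim2 hy hy') p z v w
    have h2 := sum_dd_xt (M := M) (N := M.xt y) rfl hy' p z v w
    rw [sum_dd_xt rfl hy, add_assoc] at h2
    rw [Fintype.sum_sum_type (fun i => dd M (Sum.elim y y' i) p z v w)] at h1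
    exact h1.trans h2.symm



variable [DecidableEq ι] [DecidableEq ι'] [DecidableEq κ] [DecidableEq κ']






theorem Same.gam (h : Same M N) (f g : X → ℝ) (p : X) : N.pre.gam f g p = M.pre.gam f g p := by
  rw [Imm.gam_coord (h.1 ▸ N.isChart p : IsChart N.x (M.ch p)) (M.mem p),
    Imm.gam_coord (M.isChart p) (M.mem p)]
  simp only [R247.Bo84.gam, Crest.GeometryTopology.CoordMetric.inverseField,
    h.2 p ((M.ch p).map_source (M.mem p))]

theorem Same.same (h : Same M N) : N228.Same M N univ := ⟨h.1.symm, fun p _ f g _ _ => h.gam f g p⟩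

theorem Same.norm_grad (h : Same M N) (f : X → ℝ) (p : X) : ‖N.grad f p‖ = ‖M.grad f p‖ := by
  rw [← sq_eq_sq₀ (norm_nonneg _) (norm_nonneg _), ← Imm.gam_self_eq, ← Imm.gam_self_eq, h.gam]

variable {C : Type} {φ φ0 φ' φ1 : C → X → ℝ}

theorem Same.gr (h : Same M N) (φ : C → X → ℝ) (p : X) : gr N φ p = gr M φ p :=
  funext fun c => h.norm_grad (φ c) p





variable [Fintype C] {A U U' : Set X} {η r r' : C → ℝ} {μ μ' : ℝ}

theorem InD.mono (h : InD M A η r μ φ) (hr : ∀ c, r' c ≤ r c) (hμ : μ' ≤ μ) : InD M A η r' μ' φ := by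
  obtain ⟨F, hF, h⟩ := h
  exact ⟨F, hF, fun p hp => (h p hp).mono (by linarith) (fun _ _ => le_rfl) fun c _ => hr c⟩

theorem IsPath.smy {y : ℝ → κ → X → ℝ} {ψ : ℝ → C → X → ℝ} (h : IsPath M A U η r μ φ0 φ y ψ)
    (s : ℝ) (i : κ) : M.Sm (y s i) := (h.jy i).sm rfl s

theorem IsPath.smψ {y : ℝ → κ → X → ℝ} {ψ : ℝ → C → X → ℝ} (h : IsPath M A U η r μ φ0 φ y ψ)
    (s : ℝ) (c : C) : M.Sm (ψ s c) := (h.jψ c).sm rfl s

theorem IsPath.mono {y : ℝ → κ → X → ℝ} {ψ : ℝ → C → X → ℝ} (h : IsPath M A U η r μ φ0 φ y ψ)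
    (hr : ∀ c, r' c ≤ r c) (hU : U ⊆ U') (h0 : Shr φ1 φ0) : IsPath M A U' η r' μ φ1 φ y ψ :=
  ⟨h.jy, h.jψ, h.y0, h.ψ0, fun s hs => (h.cls s hs).mono hr le_rfl,
    fun s hs => h0.trans (h.shr s hs), fun s hs p hp => h.loc s hs p fun x => hp (hU x)⟩

theorem ExPath.mono {Q Q' : (C → X → ℝ) → Prop} (h : ExPath M A U η r μ φ0 φ Q)
    (hr : ∀ c, r' c ≤ r c) (hU : U ⊆ U') (h0 : Shr φ1 φ0) (hQ : ∀ ψ, Shr φ0 ψ → Q ψ → Q' ψ) :
    ExPath M A U' η r' μ φ1 φ Q' := by
  obtain ⟨κ, _, _, y, ψ, h, hq⟩ := h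
  exact ⟨κ, _, _, y, ψ, h.mono hr hU h0, hQ _ (h.shr 1 ⟨zero_le_one, le_rfl⟩) hq⟩

theorem Rch.mono (h : Rch M A U η r μ φ0 φ N φ') (hr : ∀ c, r' c ≤ r c) (hU : U ⊆ U')
    (h0 : Shr φ1 φ0) : Rch M A U' η r' μ φ1 φ N φ' := by
  obtain ⟨κ, _, _, y, ψ, h, hq⟩ := h
  exact ⟨κ, _, _, y, ψ, h.mono hr hU h0, hq⟩

variable [T2Space X] [SecondCountableTopology X]

theorem Same.EF (h : Same M N) {F : X → ℝ} (hF : M.Sm F) (p : X) : N.pre.EF F p = M.pre.EF F p :=
  h.same.EF isOpen_univ (mem_univ p) hF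

theorem InD.congr (h : InD M A η r μ φ) (e : Same M N) : InD N A η r μ φ := by
  obtain ⟨F, hF, h⟩ := h
  exact ⟨F, e.sm hF, fun p hp => by rw [e.EF hF, e.gr]; exact h p hp⟩



/-- **concatenation** -/
theorem IsPath.append {y : ℝ → κ → X → ℝ} {ψ : ℝ → C → X → ℝ} {z : ℝ → κ' → X → ℝ}
    {χ : ℝ → C → X → ℝ} (h : IsPath M A U η r μ φ0 φ y ψ) (e : Same (M.xt (y 1)) N)
    (h' : IsPath N A U η r μ φ0 (ψ 1) z χ) :
    ∃ (w : ℝ → κ ⊕ κ' → X → ℝ) (θ : ℝ → C → X → ℝ), IsPath M A U η r μ φ0 φ w θ ∧ θ 1 = χ 1 ∧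
      Same (M.xt (w 1)) (N.xt (z 1)) := by
  have hc : N.atl = M.atl := by
    have := e.1
    unfold Imm.atl
    congr 1
    exact this.symm
  have sz : ∀ s i, M.Sm (z s i) := fun s i => e.symm.sm (h'.smy s i)
  have c1 : Continuous fun s : ℝ => min (2 * s) 1 := by fun_prop
  have c2 : Continuous fun s : ℝ => max (2 * s - 1) 0 := by fun_prop
  have key : ∀ s ∈ Icc (0 : ℝ) 1, (min (2 * s) 1 ∈ Icc (0 : ℝ) 1 ∧ max (2 * s - 1) 0 = 0) ∨
      (min (2 * s) 1 = 1 ∧ max (2 * s - 1) 0 ∈ Icc (0 : ℝ) 1) := fun s hs => by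
    rcases le_total (2 * s) 1 with a | a
    · exact Or.inl ⟨⟨le_min (by linarith [hs.1]) zero_le_one, min_le_right _ _⟩,
        max_eq_right (by linarith)⟩
    · exact Or.inr ⟨min_eq_right a, le_max_right _ _, max_le (by linarith [hs.2]) zero_le_one⟩
  have e2 : ∀ t, Same (M.xt (Sum.elim (y 1) (z t))) (N.xt (z t)) := fun t =>
    (same_xt_xt (h.smy 1) (sz t)).trans (e.xt (sz t))
  have e1 : ∀ t, Same (M.xt (Sum.elim (y t) (z 0))) (M.xt (y t)) := fun t =>
    (same_xt_xt (h.smy t) (sz 0)).trans (same_xt_const _ (fun _ => 0) h'.y0)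
  have a1 : ∀ t, (fun c p => ψ t c p + χ 0 c p - ψ 1 c p) = ψ t := fun t => by
    rw [h'.ψ0]; funext c p; ring
  have a2 : ∀ t, (fun c p => ψ 1 c p + χ t c p - ψ 1 c p) = χ t := fun t => by funext c p; ring
  refine ⟨fun s => Sum.elim (y (min (2 * s) 1)) (z (max (2 * s - 1) 0)),
    fun s c p => ψ (min (2 * s) 1) c p + χ (max (2 * s - 1) 0) c p - ψ 1 c p,
    ⟨?_, fun c => (((h.jψ c).reparam c1).add ((hc ▸ h'.jψ c).reparam c2)).sub
      ((h.jψ c).reparam (e := fun _ => 1) continuous_const), ?_, ?_, fun s hs => ?_, fun s hs => ?_,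
      fun s hs p hp => ?_⟩, ?_, ?_⟩
  · rintro (i | i)
    exacts [(h.jy i).reparam c1, (hc ▸ h'.jy i).reparam c2]
  · rintro (i | i) p
    · simpa using h.y0 i p
    · simpa using h'.y0 i p
  · simpa [a1] using h.ψ0
  · rcases key s hs with ⟨a, b⟩ | ⟨a, b⟩
    · simp only [b, a1]; exact (h.cls _ a).congr (e1 _).symm
    · simp only [a, a2]; exact (h'.cls _ b).congr (e2 _).symm
  · rcases key s hs with ⟨a, b⟩ | ⟨a, b⟩
    · simp only [b, a1]; exact h.shr _ a
    · simp only [a, a2]; exact h'.shr _ b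
  · have o : (1 : ℝ) ∈ Icc (0 : ℝ) 1 := ⟨zero_le_one, le_rfl⟩
    have z0 : (0 : ℝ) ∈ Icc (0 : ℝ) 1 := ⟨le_rfl, zero_le_one⟩
    obtain ⟨a, b⟩ : min (2 * s) 1 ∈ Icc (0 : ℝ) 1 ∧ max (2 * s - 1) 0 ∈ Icc (0 : ℝ) 1 := by
      rcases key s hs with ⟨a, b⟩ | ⟨a, b⟩
      exacts [⟨a, b.symm ▸ z0⟩, ⟨a.symm ▸ o, b⟩]
    refine ⟨?_, fun c => ?_⟩
    · rintro (i | i)
      exacts [(h.loc _ a p hp).1 i, (h'.loc _ b p hp).1 i]
    · rw [(h.loc _ a p hp).2, (h'.loc _ b p hp).2]; ring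
  · norm_num [a2]
  · norm_num; exact e2 1

theorem Rch.trans [DecidableEq ι''] {φ'' : C → X → ℝ} (h : Rch M A U η r μ φ0 φ N φ')
    (h' : Rch N A U η r μ φ0 φ' N' φ'') : Rch M A U η r μ φ0 φ N' φ'' := by
  obtain ⟨κ, _, _, y, ψ, h, rfl, e⟩ := h
  obtain ⟨κ', _, _, z, χ, h', rfl, e'⟩ := h'
  obtain ⟨w, θ, H, e1, e2⟩ := h.append e h'
  exact ⟨_, _, _, w, θ, H, e1, e2.trans e'⟩



end Crest.Agent.N228.G

end
end

-- ▼ part N228/T/GS2
section

/-! # Row 228, the top layer (helper92): `GSep` and `GEnd` from part G -/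

set_option autoImplicit false
open Set Filter Topology Function Real

namespace Crest.Agent.N228.T.GS2
open Crest.Agent.N222 Crest.Agent.N222.Imm
open Crest.Agent.N228.G hiding GStmt Same GenStmt

/-- the constants of the ledger -/
def cf (D : ℕ) : ℕ → ℝ
  | 0 => 0
  | k + 1 => 2 + D * cf D k

theorem cf_nonneg (D : ℕ) : ∀ k, 0 ≤ cf D k
  | 0 => le_rfl
  | k + 1 => by have := cf_nonneg D k; unfold cf; positivity

section
variable {C C' : Type} [Fintype C] [Fintype C'] {η r φ g : C → ℝ} {j : C' → C} {m : ℕ} {V : ℝ}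

theorem mem_comp {b : C'} : b ∈ fin (φ ∘ j) ↔ j b ∈ fin φ := mem_fin.trans (mem_fin (φ := φ)).symm

theorem ok_of_sub (hj : Injective j) (h : ∀ c, |φ c| ≤ π / 2 → ∃ b, j b = c)
    (hf : Ok (η ∘ j) (r ∘ j) V (φ ∘ j) (g ∘ j)) : Ok η r V φ g := by
  classical
  obtain ⟨β, h1, h2⟩ := hf
  have e : fin φ = (fin (φ ∘ j)).image j := by
    ext c
    simp only [Finset.mem_image, mem_comp]
    exact ⟨fun hc => let ⟨b, hb⟩ := h c (mem_fin.1 hc); ⟨b, hb ▸ hc, hb⟩,
      fun ⟨b, h1, h2⟩ => h2 ▸ h1⟩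
  refine ⟨extend j β 0, fun c hc => ?_, ?_⟩
  · obtain ⟨b, rfl⟩ := h c (mem_fin.1 hc)
    rw [hj.extend_apply]
    exact h1 b (mem_comp.2 hc)
  · rw [e, Finset.sum_image fun _ _ _ _ e => hj e]
    simpa only [hj.extend_apply, comp_apply] using h2

theorem image_fin [DecidableEq C] : (fin (φ ∘ j)).image j ⊆ fin φ := fun c hc => by
  obtain ⟨b, h1, rfl⟩ := Finset.mem_image.1 hc
  exact mem_comp.1 h1

theorem few_res (hj : Injective j) (h : Few m φ) : Few m (φ ∘ j) := by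
  classical
  have := Finset.card_le_card (image_fin (φ := φ) (j := j))
  rw [Finset.card_image_of_injective _ hj] at this
  exact (Nat.add_le_add_right this 2).trans h

theorem good_res (hj : Injective j) (hr : ∀ c, 0 ≤ r c) (h : Good m η r V φ g) :
    Good m (η ∘ j) (r ∘ j) V (φ ∘ j) (g ∘ j) := by
  classical
  refine h.imp (few_res hj) fun ⟨β, h1, h2⟩ =>
    ⟨β ∘ j, fun b hb => h1 _ (mem_comp.1 hb), lt_of_le_of_lt ?_ h2⟩
  refine le_trans (le_of_eq ?_) (Finset.sum_le_sum_of_subset_of_nonneg (image_fin (j := j))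
    fun c _ _ => by have := hr c; positivity)
  rw [Finset.sum_image fun _ _ _ _ e => hj e]
  rfl

theorem sum_le {D : ℕ} (hD : Fintype.card C ≤ D) (S : Finset C) {x : ℝ} (hx : 0 ≤ x) :
    ∑ _c ∈ S, x ≤ D * x := by
  rw [Finset.sum_const, nsmul_eq_mul]
  exact mul_le_mul_of_nonneg_right (by exact_mod_cast S.card_le_univ.trans hD) hx

theorem sum_opt {D : ℕ} (hD : Fintype.card C ≤ D) {S : Finset (Option C)} (hS : none ∉ S)
    {x y : ℝ} (hx : 0 ≤ x) : ∑ b ∈ S, (b.elim y fun _ => x) ≤ D * x := by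
  classical
  have h : S ⊆ Finset.univ.image some := fun b hb => by
    cases b with
    | none => exact absurd hb hS
    | some c => exact Finset.mem_image_of_mem _ (Finset.mem_univ c)
  refine (Finset.sum_le_sum_of_subset_of_nonneg h fun b hb _ => ?_).trans ?_
  · obtain ⟨c, -, rfl⟩ := Finset.mem_image.1 hb
    exact hx
  · rw [Finset.sum_image fun _ _ _ _ e => Option.some_injective _ e]
    exact sum_le hD _ hx

end

theorem gend {n : ℕ} (hS : SStmt n) : GEnd n := by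
  classical
  intro D s hs
  have h0 := cf_nonneg D
  have h1 : 0 < D * cf D n + 1 := by have := h0 n; positivity
  refine ⟨s / (D * cf D n + 1), by positivity,
    fun ι _ _ Y _ _ _ _ _ _ N F C _ φ A hN hF hφ hD hA hc hb => ?_⟩
  set η := s / (D * cf D n + 1) with hη
  have η0 : 0 < η := by positivity
  have h2 : η * (D * cf D n + 1) = s := div_mul_cancel₀ _ h1.ne'
  obtain ⟨κ, _, _, y, ψ, hp, hq⟩ := hS ι Y C N A (fun _ => η) 0 0 (fun k _ => cf D k * η) φ
    ⟨hN, hA, fun _ => η0, fun _ => le_rfl, le_rfl, hφ⟩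
    ⟨fun k _ => mul_nonneg (h0 k) η0.le, fun k _ => by
      have := mul_nonneg (mul_nonneg D.cast_nonneg (h0 k)) η0.le
      simp only [cf]; nlinarith, fun k p _ c _ => by
      have := sum_le hD (fin (ev φ p)) (mul_nonneg (h0 k) η0.le)
      simp only [cf]; linarith⟩
    (fun p hp => (em (p ∈ interior A)).elim Or.inr fun h => Or.inl (hb p hp h))
    ⟨F, hF, fun p hp => Good.monoV ((hc p hp).imp id fun h =>
      h.add_res (sum_le hD _ (mul_nonneg (h0 n) η0.le))) (by nlinarith)⟩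
  exact ⟨ψ 1, fun c => (hp.smψ 1 c).continuous, hp.shr 1 ⟨zero_le_one, le_rfl⟩, hq⟩

theorem gsep {m : ℕ} (hL : LStepStmt m) : GSep (m + 1) := by
  classical
  intro s hs
  set b := √(s / 32) / 8 with hb
  have b0 : 0 < b := by positivity
  have b2 : b ^ 2 = s / 2048 := by rw [hb, div_pow, sq_sqrt (by positivity)]; ring
  refine ⟨4 / b, by positivity, fun D => ?_⟩
  have h0 := cf_nonneg D
  have h1 : 0 < D * cf D m + 1 := by have := h0 m; positivity
  refine ⟨s / 16 / (D * cf D m + 1), by positivity,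
    fun η η0 hη ι _ _ Y _ _ _ _ _ _ N F θ C _ φ A hN hF hθ hφ hD hA hWA hg hc => ?_⟩
  rw [le_div_iff₀ h1] at hη
  have key : ∀ t : ℝ, |b / 2 * t| ≤ π / 2 → |t| < 4 / b := fun t ht => by
    rw [abs_mul, abs_of_pos (half_pos b0)] at ht
    rw [lt_div_iff₀ b0]
    linarith [pi_lt_four]
  let Φ : Option C → Y → ℝ := fun o => o.elim (fun p => b / 2 * θ p) φ
  let η' : Option C → ℝ := fun o => o.elim (s / 32) fun _ => η
  let ρ : ℝ := s / 16 + D * (cf D m * η)
  have ρ0 : s / 16 ≤ ρ := le_add_of_nonneg_right (by have := h0 m; positivity)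
  have hU : IsOpen {p | |θ p| < 4 / b} := isOpen_lt hθ.continuous.abs continuous_const
  have hnone : ∀ p, none ∉ fin (ev (park Φ none) p) := fun p => by
    rw [fin_park]; exact Finset.notMem_erase _ _
  obtain ⟨κ, _, _, y, ψ, a1, a2, hy, hψ, ⟨F', hF', hcl⟩, hsh, hloc, hfew⟩ :=
    hL ι Y (Option C) N A η' (update 0 none ρ) (s / 2)
      (fun k o => o.elim (s / 32) fun _ => cf D k * η) Φ
      ⟨hN, hA, fun o => by cases o <;> simp only [η', Option.elim] <;> positivity,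
        fun o => by cases o <;> simp; linarith, by positivity, fun o => by
          cases o
          exacts [(sm_const _).mul hθ, hφ _]⟩
      {p | |θ p| < 4 / b} none ρ hU (fun p hp => key _ hp)
      (fun p _ hp => Or.inr (interior_maximal (fun q (hq : |θ q| < _) => hWA hq.le) hU (key _ hp)))
      ⟨⟨fun k o => by
          have := h0 k
          cases o <;> simp only [Option.elim] <;> positivity,
        fun k o => by
          have := mul_nonneg (mul_nonneg D.cast_nonneg (h0 k)) η0.le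
          cases o <;> simp only [η', Option.elim, cf] <;> nlinarith,
        fun k p _ o ho => by
          have := sum_opt hD (hnone p) (y := s / 32) (mul_nonneg (h0 k) η0.le)
          cases o with
          | none => exact absurd ho (hnone p)
          | some c => simp only [η', Option.elim_some, cf]; linarith⟩,
        by simp only [η', Option.elim]; linarith, fun p _ _ => by
          have := sum_opt hD (hnone p) (y := s / 32) (mul_nonneg (h0 m) η0.le)
          simp only [η', Option.elim_none, ρ]; linarith⟩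
      (by simp)
      ⟨F, hF, fun p hp => Or.inr (by
        have h2 : Ok η' 0 (N.pre.EF F p - s) (update (ev Φ p) none π) (gr N Φ p) :=
          ok_of_sub (Option.some_injective C) (fun o ho => by
            cases o with
            | none => rw [update_self] at ho; exact absurd ho not_fin_pi.not_ge
            | some c => exact ⟨c, rfl⟩) (by
              rw [update_comp_eq_of_forall_ne _ _ fun c => Option.some_ne_none c]
              exact hc p hp)
        have h3 := h2.put (c := none) (by rw [update_self]; exact not_fin_pi) (a := Φ none p)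
          (e := gr N Φ p none) b0.le le_rfl (by linarith : 0 ≤ ρ) fun _ => by
            have h4 : gr N Φ p none ^ 2 ≤ (b / 2) ^ 2 := by
              rw [gr, ← gam_self_eq]
              simp only [Φ, Option.elim_none, gam_apply, D_const_mul _ (hθ.diffAt p)]
              have := hg p hp
              rw [gam_apply] at this
              calc _ = (b / 2) ^ 2 * ∑ a, N.pre.D a θ p * N.pre.D a θ p := by
                    rw [Finset.mul_sum]; exact Finset.sum_congr rfl fun _ _ => by ring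
                _ ≤ _ := mul_le_of_le_one_right (sq_nonneg _) this
            linarith [le_of_sq_le_sq₀ h4 (half_pos b0).le]
        rw [update_idem, update_eq_self, update_eq_self] at h3
        exact h3.mono (by simp only [ρ]; nlinarith) (fun _ _ => le_rfl) fun _ _ => le_rfl)⟩
  have hb4 : b / 2 * (4 / b) = 2 := by field_simp; norm_num
  refine ⟨κ, ‹_›, ‹_›, y, a1, a2, F', fun p => ψ none p / (π / 2), fun c => ψ (some c), hy, hF',
    (hψ none).continuous.div_const _, fun c => hψ _, fun c => hsh (some c), fun p hp => ?_,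
    fun p hp => ?_, fun p hp => ?_, fun p hp => ?_⟩
  · have h2 := hloc p fun h : |θ p| < _ => (abs_lt.1 h).2.not_ge hp
    have h3 : 2 ≤ Φ none p := hb4 ▸ mul_le_mul_of_nonneg_left hp (half_pos b0).le
    refine ⟨h2.2.1 (by linarith), ?_, fun c => h2.1 (some c)⟩
    rw [le_div_iff₀ (by positivity), h2.1]
    linarith [pi_lt_four]
  · have h2 := hloc p fun h : |θ p| < _ => (abs_lt.1 h).1.not_ge hp
    have h3 : Φ none p ≤ -2 := by
      have := mul_le_mul_of_nonneg_left hp (half_pos b0).le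
      rwa [mul_neg, hb4] at this
    refine ⟨h2.2.2 (by linarith), ?_, fun c => h2.1 (some c)⟩
    rw [div_le_iff₀ (by positivity), h2.1]
    linarith [pi_lt_four]
  · have h2 := hcl p hp
    rw [update_idem, update_self, sub_self, 
      show update (0 : Option C → ℝ) none 0 = 0 from update_eq_self none (0 : Option C → ℝ)] at h2
    exact good_res (Option.some_injective C) (fun _ => le_rfl) h2
  · have h2 : |ψ none p| ≤ π / 2 := by
      rw [abs_div, abs_of_pos (by positivity : 0 < π / 2), div_lt_one (by positivity)] at hp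
      exact hp.le
    exact few_res (Option.some_injective C)
      (hfew p (hWA (key _ ((hsh none p).abs_le h2)).le) h2)

end GS2

theorem gstmt' : GStmt := fun hG n hn => by
  obtain ⟨m, rfl⟩ : ∃ m, n = m + 1 := ⟨n - 1, by omega⟩
  exact ⟨GS2.gsep (hG m (by omega)).2, GS2.gend (hG _ (by omega)).1⟩

end Crest.Agent.N228.T
private theorem rz_3367ed53ec : type_of% @_root_.Crest.Agent.N228.T.GS2.cf.eq_def := @_root_.Crest.Agent.N228.T.GS2.cf.eq_def -- L14
private theorem rz_f21623cd0c : type_of% @_root_.Crest.Agent.N228.T.GS2.cf.eq_1 := @_root_.Crest.Agent.N228.T.GS2.cf.eq_1 -- L14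
end

-- ▼ part N228/T/FRun
section

/-!
# Row 228, the top layer: a run in the language of forms (helper37)
-/

set_option autoImplicit false
set_option linter.unusedSectionVars false
open MeasureTheory Set Filter Topology Function Real
open scoped ContDiff

noncomputable section

namespace Crest.Agent.N228.T
open Crest.Agent.N222
open Crest.Agent.N222.A (cut cc cut_deriv_zero abs_deriv_cut_le one_le_cc)

namespace FRunH

variable {d : ℕ} {ι : Type} [Fintype ι] [DecidableEq ι] {X : Type} [TopologicalSpace X]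

/-- the cut-off: `0` on `θ ≤ a`, `1` on `a + R ≤ θ` -/
def kc (θ : X → ℝ) (a R : ℝ) (p : X) : ℝ := cut ((θ p - a) / R)

theorem contDiff_k (a R : ℝ) : ContDiff ℝ ∞ fun t : ℝ => cut ((t - a) / R) :=
  Real.smoothTransition.contDiff.comp ((contDiff_id.sub contDiff_const).div_const R)

theorem sm_kc {M : Imm d ι X} {θ : X → ℝ} (hθ : M.Sm θ) (a R : ℝ) : M.Sm (kc θ a R) :=
  hθ.comp (contDiff_k a R)

theorem gam_kc {M : Imm d ι X} {θ : X → ℝ} (hθ : M.Sm θ) (a R : ℝ) (p : X) :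
    M.pre.gam (kc θ a R) (kc θ a R) p =
      (deriv cut ((θ p - a) / R) / R) ^ 2 * M.pre.gam θ θ p := by
  have h1 : HasDerivAt cut (deriv cut ((θ p - a) / R)) ((θ p - a) / R) :=
    ((Real.smoothTransition.contDiff (n := 1)).differentiable (by simp) _).hasDerivAt
  have h2 : HasDerivAt (fun t : ℝ => (t - a) / R) (1 / R) (θ p) :=
    ((hasDerivAt_id' (θ p)).sub_const a).div_const R
  have hg : HasDerivAt (fun t : ℝ => cut ((t - a) / R)) (deriv cut ((θ p - a) / R) * (1 / R))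
      (θ p) := HasDerivAt.comp (h₂ := cut) (h := fun t : ℝ => (t - a) / R) (θ p) h1 h2
  have h3 : kc θ a R = fun q => (fun t : ℝ => cut ((t - a) / R)) (θ q) := rfl
  rw [h3]
  simp only [Imm.gam_apply, Imm.D_comp (hθ.diffAt p) hg, Finset.mul_sum]
  exact Finset.sum_congr rfl fun _ _ => by ring

theorem kc_zero {θ : X → ℝ} {a R : ℝ} (hR : 0 < R) {p : X} (h : θ p ≤ a) : kc θ a R p = 0 :=
  Real.smoothTransition.zero_of_nonpos (div_nonpos_of_nonpos_of_nonneg (by linarith) hR.le)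

theorem kc_one {θ : X → ℝ} {a R : ℝ} (hR : 0 < R) {p : X} (h : a + R ≤ θ p) : kc θ a R p = 1 :=
  Real.smoothTransition.one_of_one_le ((one_le_div hR).2 (by linarith))

theorem gam_kc_zero {M : Imm d ι X} {θ : X → ℝ} (hθ : M.Sm θ) {a R : ℝ} (hR : 0 < R) {p : X}
    (h : θ p ≤ a ∨ a + R ≤ θ p) : M.pre.gam (kc θ a R) (kc θ a R) p = 0 := by
  rw [gam_kc hθ, cut_deriv_zero (h.imp
    (fun h => div_nonpos_of_nonpos_of_nonneg (by linarith) hR.le)
    fun h => (one_le_div hR).2 (by linarith))]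
  simp

theorem gam_kc_le {M : Imm d ι X} {θ : X → ℝ} (hθ : M.Sm θ) (a : ℝ) {R c : ℝ} {p : X}
    (h : M.pre.gam θ θ p ≤ c) : M.pre.gam (kc θ a R) (kc θ a R) p ≤ cc ^ 2 * c / R ^ 2 := by
  have h1 : deriv cut ((θ p - a) / R) ^ 2 ≤ cc ^ 2 := by
    rw [← sq_abs]
    exact pow_le_pow_left₀ (abs_nonneg _) (abs_deriv_cut_le _) 2
  rw [gam_kc hθ, div_pow, div_mul_eq_mul_div]
  exact div_le_div_of_nonneg_right
    (mul_le_mul h1 h (Imm.gam_self_nonneg _ _) (sq_nonneg _)) (sq_nonneg _)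

theorem tsupport_kc {θ : X → ℝ} (hθ : Continuous θ) {a R : ℝ} (hR : 0 < R) :
    tsupport (kc θ a R) ⊆ {p | a ≤ θ p} :=
  closure_minimal (fun _ hp => not_lt.1 fun h => hp (kc_zero hR h.le))
    (isClosed_le continuous_const hθ)

theorem gam_zero {M : Imm d ι X} {f : X → ℝ} {p : X} {v : ℝ} (h : f =ᶠ[𝓝 p] fun _ => v) :
    M.pre.gam f f p = 0 := by
  rw [Imm.gam_congr h h]
  simp only [Imm.gam_apply, Imm.D_const, mul_zero, Finset.sum_const_zero]

/-- the glued potential -/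
def Vg (M : Imm d ι X) (k V1 V2 : X → ℝ) (p : X) : ℝ :=
  cos (π / 2 * k p) ^ 2 * V1 p + sin (π / 2 * k p) ^ 2 * V2 p - π ^ 2 * M.pre.gam k k p

theorem continuous_Vg {M : Imm d ι X} {k V1 V2 : X → ℝ} (hk : M.Sm k) (h1 : Continuous V1)
    (h2 : Continuous V2) : Continuous (Vg M k V1 V2) := by
  have := hk.continuous
  have := (hk.gam hk).continuous
  unfold Vg
  fun_prop

theorem Vg_ge {M : Imm d ι X} {k V1 V2 : X → ℝ} {p : X} {v l : ℝ} (h1 : v + l ≤ V1 p)
    (h2 : v + l ≤ V2 p) (h3 : π ^ 2 * M.pre.gam k k p ≤ l) : v ≤ Vg M k V1 V2 p := by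
  have e := cos_sq_add_sin_sq (π / 2 * k p)
  have a1 := mul_le_mul_of_nonneg_left h1 (sq_nonneg (cos (π / 2 * k p)))
  have a2 := mul_le_mul_of_nonneg_left h2 (sq_nonneg (sin (π / 2 * k p)))
  have a3 : cos (π / 2 * k p) ^ 2 * (v + l) + sin (π / 2 * k p) ^ 2 * (v + l) = v + l := by
    rw [← add_mul, e, one_mul]
  unfold Vg
  linarith

theorem exists_R {c l : ℝ} (hc : 0 ≤ c) (hl : 0 < l) :
    ∃ R : ℝ, 1 ≤ R ∧ π ^ 2 * (cc ^ 2 * c / R ^ 2) ≤ l := by
  have h0 : 0 ≤ π ^ 2 * (cc ^ 2 * c) / l := by positivity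
  refine ⟨1 + π ^ 2 * (cc ^ 2 * c) / l, by linarith, ?_⟩
  rw [← mul_div_assoc, div_le_iff₀ (by positivity)]
  have h1 : π ^ 2 * (cc ^ 2 * c) = l * (π ^ 2 * (cc ^ 2 * c) / l) := by field_simp
  generalize π ^ 2 * (cc ^ 2 * c) / l = u at h0 h1
  rw [h1]
  exact mul_le_mul_of_nonneg_left (by nlinarith) hl.le

end FRunH

open FRunH

theorem frun : FRunStmt := by
  rintro n s s' t t' C c hc hst hts htt ⟨W0, hW0, hA⟩
  have hl : 0 < min (s' - t') (t - t') := lt_min (by linarith) (by linarith)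
  have hl1 := min_le_left (s' - t') (t - t')
  have hl2 := min_le_right (s' - t') (t - t')
  obtain ⟨R, hR, hRl⟩ := exists_R (zero_le_one.trans hc) hl
  have hR0 : 0 < R := by linarith
  refine ⟨W0 + R + 2, by linarith, ?_⟩
  intro ι0 _ _ X _ _ _ _ _ M0 hinj hlen θ hθ0 hθ1 hK
  have hθc := hθ0.continuous
  have hsub : {p | θ p ≤ W0} ⊆ {p | θ p ≤ W0 + R + 2} := fun p (hp : θ p ≤ W0) =>
    show θ p ≤ W0 + R + 2 by linarith
  obtain ⟨G, _, hG⟩ := hA ι0 X M0 hinj hlen θ hθ0 hθ1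
    (hK.of_isClosed_subset (isClosed_le hθc continuous_const) hsub)
  refine ⟨G, inferInstance, ?_⟩
  intro ι _ _ M V J _ f0 hch hV hf0 hcm hlow
  have hθ : M.Sm θ := by rw [Imm.Sm, hch]; exact hθ0
  obtain ⟨F, hF, hFV⟩ := exists_weight hV.cont hV.form hK (δ := t - s) (by linarith)
  obtain ⟨I, hI⟩ := hG ι M (fun a => M.pre.D a F) J f0 {p | θ p ≤ W0 + R + 2} hch hV.inj hF.D
    (Imm.tan_D F) hf0 hsub (fun f hf p hp => hcm f hf p (hsub hp)) (fun p hp => by
      have h1 := hFV p hp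
      have h2 := hlow p hp
      have h3 : M.pre.Eb (fun a => M.pre.D a F) p = M.pre.EF F p := rfl
      linarith)
  refine ⟨I, fun b => ?_⟩
  obtain ⟨κ, _, _, M', B', f, hS, hinj', hB', hT', hf, hcol, hgam, hL⟩ := hI b
  have hB'' : ∀ a, M'.Sm (B' a) := fun a => hS.sm_iff.2 (hB' a)
  have hθ' : M'.Sm θ := hS.sm_iff.2 hθ
  have hE := Imm.sm_Eb hB''
  have hk := sm_kc hθ' (W0 + 1 / 2) R
  have hU : IsOpen {p | W0 < θ p} := isOpen_lt continuous_const hθc
  have hS' : Same M M' {p | W0 < θ p} := hS.mono fun p (hp : W0 < θ p) => hp.le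
  have hf1 : M'.Form (M'.pre.Eb B') := fun z hz =>
    drift n κ X M' B' _ hB'' hT' hE z hz fun _ _ => le_rfl
  refine ⟨κ, inferInstance, inferInstance, M', Vg M' (kc θ (W0 + 1 / 2) R) (M'.pre.Eb B') V, f,
    hS.mono fun p (hp : W0 + R + 2 ≤ θ p) => show W0 ≤ θ p by linarith,
    ⟨hinj', continuous_Vg hk hE.continuous hV.cont,
      Gr.ims_cut hk (Gr.formOn_of_form hf1 univ) (hS'.formOn hU (Gr.formOn_of_form hV.form _))
        (subset_univ _) ((tsupport_kc hθc hR0).trans fun p (hp : W0 + 1 / 2 ≤ θ p) =>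
          show W0 < θ p by linarith) hE.continuous hV.cont⟩,
    fun p hp => ?_, hf, ⟨hcol.face, fun g p hp => hcol.far g p (by linarith)⟩,
    fun h hh p hp => ?_, fun p hp => ⟨(hL p hp).1, ?_⟩⟩
  · have h1 : W0 + 1 / 2 + R ≤ θ p := by linarith
    rw [Vg, kc_one hR0 h1, gam_kc_zero hθ' hR0 (.inr h1)]
    simp
  · rcases le_total (θ p) W0 with h1 | h1
    · exact hgam h hh p h1
    · rw [hS.gam p h1 h h hh hh]
      exact le_mul_of_one_le_left (Imm.gam_self_nonneg _ _) hc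
  · have h2 := (hL p hp).2
    rcases le_or_gt (θ p) W0 with h1 | h1
    · have h3 : θ p ≤ W0 + 1 / 2 := by linarith
      simp only [Vg, kc_zero hR0 h3, gam_kc_zero hθ' hR0 (.inl h3), mul_zero, cos_zero, sin_zero]
      linarith
    · have h3 : ∀ g, M'.pre.gam (f g) (f g) p = 0 := fun g =>
        gam_zero (v := -1) (eventually_of_mem (hU.mem_nhds h1) fun q (hq : W0 < θ q) =>
          hcol.far g q hq.le)
      have h4 : M'.pre.gam θ θ p ≤ c := by
        rw [hS'.gam' h1]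
        exact (hcm θ hθ p hp).trans (mul_le_of_le_one_right (zero_le_one.trans hc) (hθ1 p))
      have h5 := hlow p hp
      simp only [← hS'.gam' h1] at h5
      simp only [h3, Finset.sum_const_zero, mul_zero, add_zero] at h2 ⊢
      refine Vg_ge (l := min (s' - t') (t - t')) (by linarith) (by linarith) ?_
      exact (mul_le_mul_of_nonneg_left (gam_kc_le hθ' _ h4) (sq_nonneg π)).trans hRl

end Crest.Agent.N228.T

end
end

-- ▼ part N228/T/FSep
section

/-!
# Row 228, top layer: the separator on the open manifold (helper36), `fsep : FSepStmt`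
-/

set_option autoImplicit false
set_option linter.unusedSectionVars false
open MeasureTheory Set Filter Topology Function Real
open scoped ContDiff

noncomputable section

namespace Crest.Agent.N228.T
open Crest.Agent.N222 Crest.Agent.N222.Imm
open Crest.Agent.N222.A (cut cc one_le_cc hasDerivAt_cut cut_deriv_zero cut_zero cut_one cut_nonneg
  cut_le_one abs_deriv_cut_le)
open Crest.Agent.N228.G (Few Shr Shr1 ev gr)

namespace FS

/-- a slow even cut-off -/
theorem exists_kk {W0 ε : ℝ} (h0 : 0 < W0) (hε : 0 < ε) : ∃ (W1 : ℝ) (k : ℝ → ℝ), W0 < W1 ∧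
    ContDiff ℝ ∞ k ∧ (∀ t, |t| ≤ W0 + 1 / 2 → k t = 0 ∧ deriv k t = 0) ∧
    (∀ t, W1 ≤ |t| → k t = 1 ∧ deriv k t = 0) ∧ ∀ t, π ^ 2 * deriv k t ^ 2 ≤ ε := by
  have hc := one_le_cc
  obtain ⟨R, hR, h1⟩ : ∃ R : ℝ, 0 < R ∧ π ^ 2 * (2 * cc / R) ^ 2 ≤ ε := by
    refine ⟨π * (2 * cc) / √ε, by positivity, le_of_eq ?_⟩
    have := sqrt_pos.2 hε
    field_simp
    exact sq_sqrt hε.le
  have hd : ∀ t, deriv (fun t => cut ((t - (W0 + 1 / 2)) / R) + cut ((-t - (W0 + 1 / 2)) / R)) t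
      = deriv cut ((t - (W0 + 1 / 2)) / R) * (1 / R)
        + deriv cut ((-t - (W0 + 1 / 2)) / R) * (-1 / R) := fun t =>
    (((hasDerivAt_cut _).comp t (((hasDerivAt_id t).sub_const _).div_const R)).add
      ((hasDerivAt_cut _).comp t (((hasDerivAt_neg t).sub_const _).div_const R))).deriv
  refine ⟨W0 + 1 / 2 + R, fun t => cut ((t - (W0 + 1 / 2)) / R) + cut ((-t - (W0 + 1 / 2)) / R),
    by linarith, (smoothTransition.contDiff.comp (by fun_prop)).add
      (smoothTransition.contDiff.comp (by fun_prop)), fun t ht => ?_, fun t ht => ?_, fun t => ?_⟩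
  · have a1 : (t - (W0 + 1 / 2)) / R ≤ 0 :=
      div_nonpos_of_nonpos_of_nonneg (by linarith [abs_le.1 ht]) hR.le
    have a2 : (-t - (W0 + 1 / 2)) / R ≤ 0 :=
      div_nonpos_of_nonpos_of_nonneg (by linarith [abs_le.1 ht]) hR.le
    rw [hd, cut_deriv_zero (.inl a1), cut_deriv_zero (.inl a2)]
    simp only [cut_zero a1, cut_zero a2, add_zero, zero_mul, and_self]
  · rcases le_abs.1 ht with h | h
    · have a1 : 1 ≤ (t - (W0 + 1 / 2)) / R := (one_le_div hR).2 (by linarith)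
      have a2 : (-t - (W0 + 1 / 2)) / R ≤ 0 := div_nonpos_of_nonpos_of_nonneg (by linarith) hR.le
      rw [hd, cut_deriv_zero (.inr a1), cut_deriv_zero (.inl a2)]
      simp only [cut_one a1, cut_zero a2, add_zero, zero_mul, and_self]
    · have a1 : (t - (W0 + 1 / 2)) / R ≤ 0 := div_nonpos_of_nonpos_of_nonneg (by linarith) hR.le
      have a2 : 1 ≤ (-t - (W0 + 1 / 2)) / R := (one_le_div hR).2 (by linarith)
      rw [hd, cut_deriv_zero (.inl a1), cut_deriv_zero (.inr a2)]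
      simp only [cut_zero a1, cut_one a2, zero_add, zero_mul, and_self]
  · refine (mul_le_mul_of_nonneg_left (sq_le_sq' ?_ ?_) (sq_nonneg π)).trans h1 <;> rw [hd]
    all_goals
      have a1 := abs_le.1 (abs_deriv_cut_le ((t - (W0 + 1 / 2)) / R))
      have a2 := abs_le.1 (abs_deriv_cut_le ((-t - (W0 + 1 / 2)) / R))
      have a3 : 0 < 1 / R := by positivity
      rw [neg_div, div_eq_mul_one_div (2 * cc)]
      nlinarith

/-- the identity, truncated from above -/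
theorem exists_h (W1 : ℝ) : ∃ h : ℝ → ℝ, ContDiff ℝ ∞ h ∧ (∀ t, t ≤ W1 + 1 → h t = t) ∧
    (∀ t, W1 + 2 ≤ t → h t = W1 + 2) ∧ ∀ t, W1 + 1 ≤ t → W1 + 1 ≤ h t := by
  refine ⟨fun t => t + (W1 + 2 - t) * cut (t - (W1 + 1)), contDiff_id.add
    ((contDiff_const.sub contDiff_id).mul (smoothTransition.contDiff.comp (by fun_prop))),
    fun t ht => ?_, fun t ht => ?_, fun t ht => ?_⟩
  · simp only [cut_zero (sub_nonpos.2 ht), mul_zero, add_zero]
  · simp only [cut_one (show 1 ≤ t - (W1 + 1) by linarith), mul_one, add_sub_cancel]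
  · nlinarith [cut_nonneg (t - (W1 + 1)), cut_le_one (t - (W1 + 1))]

variable {d : ℕ} {ι κ : Type} [Fintype ι] [DecidableEq ι] [Fintype κ] [DecidableEq κ] {X Y : Type}
  [TopologicalSpace X] [TopologicalSpace Y] {C : Type} {p : X}

theorem ev_eq {φ : C → X → ℝ} {φ' : C → Y → ℝ} {e : X → Y}
    (h : ∀ c, φ c =ᶠ[𝓝 p] fun q => φ' c (e q)) : ev φ p = ev φ' (e p) :=
  funext fun c => (h c).self_of_nhds

theorem gr_emb {M : Imm d ι X} {N : Imm d κ Y} {e : OpenPartialHomeomorph X Y} (he : Emb M N e)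
    (hp : p ∈ e.source) {φ : C → X → ℝ} {φ' : C → Y → ℝ}
    (h : ∀ c, φ c =ᶠ[𝓝 p] fun q => φ' c (e q)) : gr M φ p = gr N φ' (e p) :=
  funext fun c => he.norm_grad hp (h c)

theorem gr_same [T2Space X] [SecondCountableTopology X] {M : Imm d ι X} {M' : Imm d κ X} {U : Set X}
    (hs : Same M M' U) (hp : p ∈ U) {φ φ' : C → X → ℝ} (h : ∀ c, φ' c =ᶠ[𝓝 p] φ c) :
    gr M' φ' p = gr M φ p := funext fun c => by
  rw [gr, gr, ← sq_eq_sq₀ (norm_nonneg _) (norm_nonneg _), ← gam_self_eq, ← gam_self_eq,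
    hs.gam' hp, gam_congr (h c) (h c)]

theorem gam_comp {M : Imm d ι X} {w : X → ℝ} (hw : M.Sm w) {g : ℝ → ℝ} (hg : ContDiff ℝ ∞ g) :
    M.pre.gam (fun q => g (w q)) (fun q => g (w q)) p = deriv g (w p) ^ 2 * M.pre.gam w w p := by
  simp only [gam_apply, D_comp (hw.diffAt p) (hg.differentiable (by simp) _).hasDerivAt,
    Finset.mul_sum]
  exact Finset.sum_congr rfl fun _ _ => by ring

/-- gluing a weight with the old potential -/
theorem glue [T2Space X] [SecondCountableTopology X] [MeasurableSpace X] [BorelSpace X]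
    {M : Imm d ι X} {M' : Imm d κ X} {V θ F : X → ℝ} {W0 W1 ε : ℝ} {k : ℝ → ℝ}
    (hV : Fm M V) (hθ : M.Sm θ) (hF : M'.Sm F) (hs : Same M M' {p | W0 < |θ p|})
    (hk : ContDiff ℝ ∞ k) (k0 : ∀ t, |t| ≤ W0 + 1 / 2 → k t = 0 ∧ deriv k t = 0)
    (k1 : ∀ t, W1 ≤ |t| → k t = 1 ∧ deriv k t = 0) (k2 : ∀ t, π ^ 2 * deriv k t ^ 2 ≤ ε) :
    ∃ V' : X → ℝ, Continuous V' ∧ M'.Form V' ∧ (∀ p, |θ p| ≤ W0 → V' p = M'.pre.EF F p) ∧
      (∀ p, W1 ≤ |θ p| → V' p = V p) ∧ ∀ p, W0 < |θ p| → M.pre.gam θ θ p ≤ 1 →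
        min (M'.pre.EF F p) (V p) - ε ≤ V' p := by
  have hθ' := hs.sm_iff.2 hθ
  have hK := hθ'.comp hk
  have hc := hK.continuous
  have hE := hF.EF.continuous
  have hG := (hK.gam hK).continuous
  have hV' := hV.cont
  refine ⟨_, ?_, Gr.ims_cut hK (Gr.formOn_of_form (Gr.form_EF hF) univ)
    (hs.formOn (isOpen_lt continuous_const hθ.continuous.abs) (Gr.formOn_of_form hV.form _))
    (subset_univ _) ?_ hE hV', fun p hp => ?_, fun p hp => ?_, fun p hp h1 => ?_⟩
  · exact (((continuous_cos.comp (continuous_const.mul hc)).pow 2).mul hE).add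
      (((continuous_sin.comp (continuous_const.mul hc)).pow 2).mul hV') |>.sub
      (continuous_const.mul hG)
  · refine (closure_minimal (s := support fun p => k (θ p)) (t := {p | W0 + 1 / 2 ≤ |θ p|})
      (fun p hp => le_of_not_ge fun h => hp (k0 _ h).1)
      (isClosed_le continuous_const hθ.continuous.abs)).trans fun p hp => ?_
    exact lt_of_lt_of_le (show W0 < W0 + 1 / 2 by linarith) hp
  · obtain ⟨a1, a2⟩ := k0 (θ p) (by linarith)
    simp [gam_comp hθ' hk, a1, a2]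
  · obtain ⟨a1, a2⟩ := k1 (θ p) hp
    simp [gam_comp hθ' hk, a1, a2]
  · have a1 := (mul_le_of_le_one_right (by positivity) h1).trans (k2 (θ p))
    have a2 := mul_le_mul_of_nonneg_left (min_le_left (M'.pre.EF F p) (V p))
      (sq_nonneg (cos (π / 2 * k (θ p))))
    have a3 := mul_le_mul_of_nonneg_left (min_le_right (M'.pre.EF F p) (V p))
      (sq_nonneg (sin (π / 2 * k (θ p))))
    have a4 : cos (π / 2 * k (θ p)) ^ 2 * min (M'.pre.EF F p) (V p)
        + sin (π / 2 * k (θ p)) ^ 2 * min (M'.pre.EF F p) (V p) = min (M'.pre.EF F p) (V p) := by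
      rw [← add_mul, cos_sq_add_sin_sq, one_mul]
    simp only [gam_comp hθ' hk, hs.gam' hp]
    linarith

end FS

open FS

/-- **T5** -/
theorem fsep : FSepStmt := by
  intro hC n hG s hs
  replace hG := hG (3 * s / 4) (by positivity)
  obtain ⟨W0, hW0, hG⟩ := hG
  obtain ⟨W1, k, h01, hk, k0, k1, k2⟩ := exists_kk hW0 (show 0 < s / 8 by positivity)
  obtain ⟨h, hh, h1, h2, h3⟩ := exists_h W1
  refine ⟨W1 + 2, by linarith, fun D => ?_⟩
  replace hG := hG D
  obtain ⟨η0, hη0, hG⟩ := hG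
  refine ⟨η0, hη0, fun η e0 e1 ι _ _ X _ _ _ _ _ M V θ C _ φ hV hθ hφ hD hK hP => ?_⟩
  obtain ⟨ι', _, _, Y, _, _, _, _, _, N, _, hN, e, L, c, F, hKe, hx, hF, hVF⟩ :=
    hC n ι X M hV.inj V _ (s / 4) hV.cont hV.form hK (by positivity)
  have he : Emb M N e := ⟨L, c, hx⟩
  have θc := hθ.continuous
  have src : ∀ {p}, θ p ≤ W1 + 2 → p ∈ e.source := fun hp => hKe hp
  have hK1 : IsCompact {p | θ p ≤ W1} := hK.of_isClosed_subset (isClosed_le θc continuous_const)
    fun p (hp : θ p ≤ W1) => show θ p ≤ W1 + 2 by linarith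
  have hK1e : {p | θ p ≤ W1} ⊆ e.source := fun p (hp : θ p ≤ W1) => src (by linarith)
  obtain ⟨θY, sθ, t1, t2⟩ := he.push hK hKe (hθ.comp hh) (a := W1 + 2)
    fun p _ hp => h2 _ (le_of_not_ge hp)
  choose φY sφ hφY using fun c => he.push_near hK hKe (hφ c)
  have tle : ∀ p, θ p ≤ W1 + 1 → θY (e p) = θ p := fun p hp => by
    rw [t1 p (src (by linarith)), h1 _ hp]
  have tge : ∀ p ∈ e.source, W0 ≤ θ p → W0 ≤ θY (e p) := fun p hp h0 => by
    rcases le_total (θ p) (W1 + 1) with a | a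
    · rwa [tle p a]
    · rw [t1 p hp]
      linarith [h3 _ a]
  have hA : ∀ y, |θY y| ≤ W1 → ∃ p, |θ p| ≤ W1 ∧ e p = y := fun y hy => by
    have a1 := (abs_le.1 hy).2
    obtain ⟨p, hp, rfl⟩ : y ∈ e '' {p | θ p ≤ W1 + 2} := by_contra fun a => by
      linarith [t2 y a]
    rcases le_total (θ p) (W1 + 1) with a | a
    · exact ⟨p, tle p a ▸ hy, rfl⟩
    · linarith [h3 _ a, t1 p (hKe hp)]
  obtain ⟨κ, _, _, y, a, b, F', ψ, φ', sy, sF', ψc, sφ', hshr, up, dn, cls, few⟩ :=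
    hG η e0 e1 ι' Y N F θY C φY {y | |θY y| ≤ W1} hN hF sθ sφ hD
      (isClosed_le sθ.continuous.abs continuous_const)
      (fun y (hy : |θY y| ≤ W0) => hy.trans h01.le) (fun y hy => by
        obtain ⟨p, hp, rfl⟩ := hA y hy
        have a1 := (abs_le.1 hp).2
        have a2 : θ =ᶠ[𝓝 p] fun q => θY (e q) := (θc.continuousAt.eventually_lt_const
          (show θ p < W1 + 1 by linarith)).mono fun q hq => (tle q hq.le).symm
        rw [← he.gam (hK1e a1) a2 a2]
        exact (hP p (by linarith)).1) fun y hy => by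
        obtain ⟨p, hp, rfl⟩ := hA y hy
        have a1 := (abs_le.1 hp).2
        have a2 := fun c => hφY c p (show θ p ≤ W1 + 2 by linarith)
        rw [Pay, ← ev_eq a2, ← gr_emb he (hK1e a1) a2]
        exact (hP p (by linarith)).2.mono (by linarith [hVF p (hK1e a1)]) (fun _ _ => le_rfl)
          fun _ _ => le_rfl
  have out : ∀ p ∈ e.source, p ∉ {p | θ p ≤ W1} → W0 ≤ θY (e p) := fun p hp a =>
    tge p hp (h01.le.trans (le_of_not_ge a))
  choose yX syX y1 y2 using fun i => he.pull hK1 hK1e (sy i) (a := a i)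
    fun p hp a => (up _ (out p hp a)).1 i
  choose g sg g1 g2 using fun c => he.pull hK1 hK1e ((sφ' c).sub (sφ c)) (a := 0)
    fun p hp a => sub_eq_zero.2 ((up _ (out p hp a)).2.2 c)
  have he' : Emb (M.xt yX) (N.xt y) e := he.xt syX sy y1
  obtain ⟨FX, sFX, -, hFX⟩ := he'.pull_near hK hKe (f := F') sF'
  have hU : IsOpen {p | W0 < |θ p|} := isOpen_lt continuous_const θc.abs
  have same : Same M (M.xt yX) {p | W0 < |θ p|} := same_xt syX fun p (hp : W0 < |θ p|) => by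
    rcases lt_abs.1 hp with a1 | a1
    · refine ⟨a, (θc.continuousAt.eventually_const_lt a1).mono fun q hq i => ?_⟩
      by_cases a2 : θ q ≤ W1
      · rw [y1 i q (hK1e a2), (up _ (tge q (hK1e a2) hq.le)).1 i]
      · exact y2 i q a2
    · refine ⟨b, (θc.continuousAt.eventually_lt_const (show θ p < -W0 by linarith)).mono
        fun q hq i => ?_⟩
      rw [y1 i q (src (by linarith)), (dn _ (by rw [tle q (by linarith)]; exact hq.le)).1 i]
  have near : ∀ p, θ p ≤ W1 + 2 → ∀ c, (fun q => φ c q + g c q) =ᶠ[𝓝 p] fun q => φ' c (e q) :=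
    fun p hp c => by
      filter_upwards [hφY c p hp, e.open_source.mem_nhds (src hp)] with q a1 a2
      rw [a1, g1 c q a2, add_sub_cancel]
  have far : ∀ p, W0 < |θ p| → ∀ c, (fun q => φ c q + g c q) =ᶠ[𝓝 p] φ c := fun p hp c => by
    filter_upwards [hU.mem_nhds hp] with q (hq : W0 < |θ q|)
    rw [add_eq_left]
    by_cases a2 : θ q ≤ W1
    · rw [g1 c q (hK1e a2), sub_eq_zero]
      rcases lt_abs.1 hq with a1 | a1
      · exact (up _ (tge q (hK1e a2) a1.le)).2.2 c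
      · exact (dn _ (by rw [tle q (by linarith)]; linarith)).2.2 c
    · exact g2 c q a2
  obtain ⟨V', Vc, Vf, v0, v1, v2⟩ := glue hV hθ sFX same hk k0 k1 k2
  refine ⟨ι ⊕ κ, inferInstance, inferInstance, M.xt yX, V',
    fun p => if θ p ≤ W1 then 2 * max (-1) (min 1 (ψ (e p))) else 2, fun c q => φ c q + g c q,
    same.mono fun p (hp : W1 + 2 ≤ |θ p|) => show W0 < |θ p| by linarith,
    ⟨xt_inj hV.inj _, Vc, Vf⟩,
    continuous_if_le θc continuous_const ?_ continuousOn_const fun p hp => ?_,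
    fun c => (hφ c).add (sg c), fun c p => ?_,
    fun p hp => ⟨v1 p (by linarith), far p (by linarith)⟩, fun p hp => if_neg (by linarith),
    fun p hp => ?_, fun p hp => ?_, fun p hp => ?_⟩
  · exact (show Continuous fun y => 2 * max (-1) (min 1 (ψ y)) by fun_prop).comp_continuousOn
      (e.continuousOn.mono hK1e)
  · rw [min_eq_left (up _ (tge p (hK1e hp.le) (by linarith))).2.1]
    norm_num
  · change Shr1 (φ c p) (φ c p + g c p)
    by_cases a : θ p ≤ W1
    · rw [g1 c p (hK1e a), (hφY c p (show θ p ≤ W1 + 2 by linarith)).self_of_nhds, add_sub_cancel]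
      exact hshr c _
    · rw [g2 c p a, add_zero]
      exact G.Shr1.refl _
  · have a1 := (dn (e p) (by rw [tle p (by linarith)]; linarith)).2.1
    beta_reduce
    rw [if_pos (show θ p ≤ W1 by linarith), max_eq_left ((min_le_right _ _).trans a1)]
    norm_num
  · have a1 := (abs_le.1 hp).2
    have c1 : |θ p| ≤ W1 → Cls (M.xt yX) η (fun c q => φ c q + g c q)
        ((M.xt yX).pre.EF FX p - 3 * s / 4 / 2) p := fun a => by
      rw [Cls, ev_eq (near p a1), gr_emb he' (src a1) (near p a1), he'.EF (src a1) sF' (hFX p a1)]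
      exact cls (e p) (show |θY (e p)| ≤ W1 by rwa [tle p (by linarith [abs_le.1 a])])
    rcases le_or_gt |θ p| W0 with a2 | a2
    · exact (c1 (a2.trans h01.le)).monoV (by linarith [v0 p a2])
    have c2 : Cls (M.xt yX) η (fun c q => φ c q + g c q) (V p - s) p := by
      rw [Cls, ev_eq (e := id) (far p a2), gr_same same a2 (far p a2)]
      exact Or.inr (hP p hp).2
    have a3 := v2 p a2 (hP p hp).1
    rcases le_total |θ p| W1 with a4 | a4
    · rcases le_total ((M.xt yX).pre.EF FX p) (V p) with a5 | a5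
      · exact (c1 a4).monoV (by linarith [min_eq_left a5])
      · exact c2.monoV (by linarith [min_eq_right a5])
    · exact c2.monoV (by linarith [v1 p a4])
  · beta_reduce at hp
    by_cases a : θ p ≤ W1
    · rw [if_pos a, abs_le] at hp
      rw [ev_eq (near p (by linarith))]
      refine few _ (abs_lt.2 ⟨lt_of_not_ge fun a1 => ?_, lt_of_not_ge fun a1 => ?_⟩)
      · rw [max_eq_left ((min_le_right _ _).trans a1)] at hp
        linarith [hp.1]
      · rw [min_eq_left a1, max_eq_right (by norm_num)] at hp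
        linarith [hp.2]
    · rw [if_neg a, abs_two] at hp
      linarith

end Crest.Agent.N228.T

end
end

-- ▼ part N228/T/Glue
section

/-!
# Row 228, the top layer: gluing the pieces along the separators
-/

set_option autoImplicit false
open Set Filter Topology Function Real

noncomputable section

namespace Crest.Agent.N228.T
open Crest.Agent.N228.G (Shr1)

theorem Glue.shr {a b t : ℝ} (h : Shr1 a b) (h0 : 0 ≤ t) (h1 : t ≤ 1) :
    Shr1 a ((1 - t) * a + t * b) := by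
  refine ⟨fun ha => ?_, fun ha => ?_⟩
  · have hb := h.1 ha
    rcases le_total a b with h2 | h2 <;> nlinarith
  · have hb := h.2 ha
    rcases le_total a b with h2 | h2 <;> nlinarith

theorem glue : GlueStmt := by
  intro X _ k C κ φ ψ Φ hφ hψ hl hp h0 hlψ hmono hsep hΦ hpc
  let A : ℕ → Set X := fun i => {p | 0 ≤ ψ i p ∧ ψ (i + 1) p ≤ 0}
  have hcov : ∀ p, ∃ i, p ∈ A i := by
    intro p
    obtain ⟨j, hj⟩ := (hlψ.point_finite p).exists_notMem
    have hj' : ψ j p < 0 := not_le.1 hj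
    have hex : ∃ i, ψ (i + 1) p ≤ 0 := by
      cases j with
      | zero => exact absurd (h0 p) hj'.not_gt
      | succ j => exact ⟨j, hj'.le⟩
    classical
    refine ⟨Nat.find hex, ?_, Nat.find_spec hex⟩
    cases e : Nat.find hex with
    | zero => exact (h0 p).le
    | succ i => exact (not_le.1 (Nat.find_min hex (m := i) (by omega))).le
  choose ι hι using hcov
  let χ : ℕ → X → ℝ := fun i p => min 1 (min (ψ i p) (-ψ (i + 1) p))
  have hχ : ∀ i, ∀ p ∈ A i, 0 ≤ χ i p ∧ χ i p ≤ 1 := fun i p hp =>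
    ⟨le_min zero_le_one (le_min hp.1 (neg_nonneg.2 hp.2)), min_le_left _ _⟩
  let t : ℕ → κ → X → ℝ := fun i c p => (1 - χ i p) * φ c p + χ i p * Φ i c p
  have hlt : ∀ i j p, i < j → p ∈ A i → p ∈ A j → χ i p = 0 ∧ χ j p = 0 := by
    intro i j p hij hi hj
    have e : j = i + 1 := by
      by_contra hne
      exact (hmono (i + 1) j p (by omega) hj.1).not_ge hi.2
    subst e
    have h1 : ψ (i + 1) p = 0 := le_antisymm hi.2 hj.1
    refine ⟨le_antisymm ?_ (hχ i p hi).1, le_antisymm ?_ (hχ _ p hj).1⟩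
    · exact (min_le_right _ _).trans ((min_le_right _ _).trans (by rw [h1, neg_zero]))
    · exact (min_le_right _ _).trans ((min_le_left _ _).trans h1.le)
  have heq : ∀ i c, ∀ p ∈ A i, t (ι p) c p = t i c p := by
    intro i c p hp
    rcases lt_trichotomy (ι p) i with h | h | h
    · obtain ⟨h1, h2⟩ := hlt _ _ p h (hι p) hp
      simp only [t, h1, h2, zero_mul]
    · rw [h]
    · obtain ⟨h1, h2⟩ := hlt _ _ p h hp (hι p)
      simp only [t, h1, h2, zero_mul]
  have hshr : ∀ c p, Shr1 (φ c p) (t (ι p) c p) := fun c p =>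
    Glue.shr ((hpc _ p (hι p).1 (hι p).2).1 c) (hχ _ p (hι p)).1 (hχ _ p (hι p)).2
  have hlow : ∀ c p, -(π / 2) < t (ι p) c p → -(π / 2) ≤ φ c p := fun c p h =>
    not_lt.1 fun h' => ((hshr c p).2 h').not_gt h
  refine cube X k C (π / 2) (by positivity) κ (fun c p => t (ι p) c p) (fun c => ?_)
    (hl.subset fun c p h => hlow c p h) (fun p => ?_) fun p S hS => ?_
  · refine LocallyFinite.continuous (f := A) (hlψ.subset fun i p h => h.1)
      (eq_univ_of_forall fun p => mem_iUnion.2 ⟨_, hι p⟩)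
      (fun i => (isClosed_le continuous_const (hψ i)).inter (isClosed_le (hψ _) continuous_const))
      fun i => ?_
    have hc : Continuous (χ i) := continuous_const.min ((hψ i).min (hψ _).neg)
    exact (((continuous_const.sub hc).mul (hφ c)).continuousOn.add
      (hc.continuousOn.mul (hΦ i c))).congr (heq i c)
  · obtain ⟨c, h1, h2⟩ := hp p
    exact ⟨c, ((hshr c p).1 h1).le, fun q hq => h2 q (hlow c q hq)⟩
  · have hφS : ∀ c ∈ S, |φ c p| ≤ π / 2 := fun c hc => abs_le.2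
      ⟨hlow c p (abs_lt.1 (hS c hc)).1,
        not_lt.1 fun h => ((hshr c p).1 h).not_gt (abs_lt.1 (hS c hc)).2⟩
    by_cases h1 : ψ (ι p) p ≤ 1
    · exact hsep (ι p) p S (abs_le.2 ⟨by linarith [(hι p).1], h1⟩) hφS
    by_cases h2 : -1 ≤ ψ (ι p + 1) p
    · exact hsep (ι p + 1) p S (abs_le.2 ⟨h2, by linarith [(hι p).2]⟩) hφS
    have h3 : χ (ι p) p = 1 := min_eq_left (le_min (not_le.1 h1).le (by linarith [not_le.1 h2]))
    refine (hpc _ p (hι p).1 (hι p).2).2 S fun c hc => ?_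
    have := (hS c hc).le
    simpa only [t, h3, sub_self, zero_mul, one_mul, zero_add] using this

end Crest.Agent.N228.T

end
end

-- ▼ part N228/T/Top
section

/-!
# Row 228, the top layer (helper94): the recursion and the final cover
-/

set_option autoImplicit false
open MeasureTheory Set Filter Topology Function Real
open scoped ContDiff

noncomputable section

namespace Crest.Agent.N228.T
open Crest.Agent.N222 Crest.Agent.N222.Imm
open Crest.Agent.N228.G (Few Shr Shr1 ev)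

theorem locFin {X κ : Type} [TopologicalSpace X] {S : κ → Set X} (i : κ → ℕ)
    (hi : ∀ k, (i ⁻¹' {k}).Finite) {ρ : X → ℝ} (hρ : Continuous ρ) {P : ℝ} (hP : 0 < P)
    (h : ∀ c, ∀ p ∈ S c, (2 * i c - 1) * P ≤ ρ p + P) : LocallyFinite S := fun p => by
  obtain ⟨K, hK⟩ := exists_nat_gt ((ρ p + 1) / (2 * P) + 1)
  refine ⟨{q | ρ q < ρ p + 1}, (isOpen_lt hρ continuous_const).mem_nhds (lt_add_one (ρ p)),
    ((finite_Iic K).preimage' fun k _ => hi k).subset ?_⟩
  rintro c ⟨q, h1, h2 : ρ q < _⟩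
  have h3 := h c q h1
  have h4 : (i c : ℝ) - 1 ≤ (ρ p + 1) / (2 * P) := by
    rw [le_div_iff₀ (by positivity)]
    linarith
  exact show i c ≤ K by exact_mod_cast (show (i c : ℝ) ≤ K by linarith)

theorem fin_fst (G : ℕ → Type) [∀ k, Fintype (G k)] (k : ℕ) :
    ((Sigma.fst : (Σ k, G k) → ℕ) ⁻¹' {k}).Finite :=
  (finite_range (Sigma.mk k)).subset <| by
    rintro ⟨_, g⟩ rfl
    exact ⟨g, rfl⟩

theorem top : TopStmt := by
  intro n t0 t1 C c hn hc h0 h1 h2 r1 r2 hS hE ι _ _ X _ _ _ _ _ M0 m1 m2 hF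
  classical
  obtain ⟨W, hW, r1⟩ := prun hc r1
  obtain ⟨W', hW', r2⟩ := prun hc r2
  obtain ⟨Z, hZ, hop⟩ := op hc h0 h1 hW r1 hS
  obtain ⟨H, hH⟩ : ∃ H, H = Z + W' + 3 := ⟨_, rfl⟩
  obtain ⟨P, hP⟩ : ∃ P, P = H + W + 1 := ⟨_, rfl⟩
  have P0 : 0 < P := by linarith
  obtain ⟨ρ, ρ1, ρ2, ρ3⟩ := exists_rho m1 m2 one_pos
  obtain ⟨t, ht⟩ : ∃ t : ℕ → X → ℝ, ∀ k, t k = fun p => 1 / 2 * ρ p + -((2 * k - 1) * P) :=
    ⟨_, fun _ => rfl⟩
  have ρs : M0.Sm fun p => 1 / 2 * ρ p := (sm_const _).mul ρ1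
  have t1' : ∀ k, M0.Sm (t k) := fun k => ht k ▸ ρs.add (sm_const _)
  have t2 : ∀ k p, M0.pre.gam (t k) (t k) p ≤ 1 := fun k p => by
    have h3 : M0.pre.gam (t k) (t k) p = 1 / 4 * M0.pre.gam ρ ρ p := by
      simp only [ht, gam_apply, D_add_const, D_const_mul _ (ρ1.diffAt p), Finset.mul_sum]
      exact Finset.sum_congr rfl fun _ _ => by ring
    linarith [(ρ2 p).2]
  have t3 : ∀ k r, IsCompact {p | t k p ≤ r} := fun k r => by
    convert ρ3 (2 * (r + (2 * k - 1) * P)) using 1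
    ext p
    simp only [ht, mem_ofPred_eq]
    constructor <;> intro h <;> linarith
  have t4 : ∀ k p, t (k + 1) p = t k p - 2 * P := fun k p => by
    simp only [ht, Nat.cast_succ]
    ring
  have t5 : ∀ {i j} p, i < j → t j p + 2 * P ≤ t i p := fun {i j} p h => by
    have : (i : ℝ) + 1 ≤ j := by exact_mod_cast h
    simp only [ht]
    nlinarith
  have t6 : ∀ {i j} p, i ≤ j → t j p ≤ t i p := fun p h =>
    h.eq_or_lt.elim (fun h => h ▸ le_rfl) fun h => by linarith [t5 p h]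
  choose G iG η0 hη0 hop using fun k => hop H (by linarith) ι X M0 m1 m2 (t k) (t1' k) (t2 k) (t3 k)
  choose G' iG' hpc using fun k => piece hn hc h0 h2 hW hW' hZ r2 hE ι X M0 m1 m2 (t k) (t1' k)
    (t2 k) (t3 k) H P hH hP
  choose ηE hηE hpc using fun k => hpc k (G k) (G (k + 1))
  obtain ⟨η, hη⟩ : ∃ η : ℕ → ℝ, ∀ k, η k = min (η0 k) (min (ηE k) (ηE (k - 1))) := ⟨_, fun _ => rfl⟩
  let Inv : ℕ → St n X → Prop := fun k a =>
    Fm a.M a.V ∧ Same M0 a.M {p | -P ≤ t k p} ∧ ∀ p, -P ≤ t k p → a.V p = 1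
  have step : ∀ k (a : {a // Inv k a}), ∃ (b : {a // Inv (k + 1) a}) (u φ : G k → X → ℝ)
      (ψ : X → ℝ), OpOut (t k) Z H W t0 C c (η k) a.1 b.1 u φ ψ := by
    rintro k ⟨a, a1, a2, a3⟩
    obtain ⟨b, u, φ, ψ, o⟩ := hop k (η k) (hη k ▸ lt_min (hη0 k) (lt_min (hηE _) (hηE _)))
      (hη k ▸ min_le_left _ _) a a1
      (a2.mono fun p (hp : |t k p| ≤ H + W + 1) =>
        show -P ≤ t k p by linarith [neg_abs_le (t k p)])
      fun p hp => a3 p (by linarith [neg_abs_le (t k p)])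
    refine ⟨⟨b, o.fm, (a2.mono fun p (hp : -P ≤ t (k + 1) p) =>
      show -P ≤ t k p by linarith [t4 k p]).trans (o.same.mono fun p (hp : -P ≤ t (k + 1) p) =>
        show H + W ≤ |t k p| by linarith [t4 k p, le_abs_self (t k p)]),
      fun p hp => (o.V p ?_).trans (a3 p ?_)⟩, u, φ, ψ, o⟩
    · linarith [t4 k p, le_abs_self (t k p)]
    · linarith [t4 k p]
  choose nx u φ ψ o using step
  let s : ∀ k, {a // Inv k a} := fun k => Nat.rec
    ⟨⟨ι, M0, fun _ => 1⟩, ⟨m1, continuous_const, hF⟩, Same.refl _ _, fun _ _ => rfl⟩ nx k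
  choose φ' Φ pc using fun k => hpc k (η k) (η (k + 1)) (s k).1 (s (k + 1)).1 (s (k + 1 + 1)).1
    _ _ _ _ _ _ (t (k + 1)) (hη k ▸ (min_le_right _ _).trans (min_le_left _ _))
    (hη (k + 1) ▸ (min_le_right _ _).trans (min_le_right _ _)) (t4 k)
    ((s k).2.2.1.mono fun p (hp : 0 ≤ t k p) => show -P ≤ t k p by linarith) (o k (s k))
    (o (k + 1) (s (k + 1)))
  replace o := fun k => o k (s k)
  set ψ' : ℕ → X → ℝ := fun k => ψ k (s k)
  let φg : (Σ k, G k) ⊕ (Σ k, G' k) → X → ℝ :=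
    Sum.elim (fun x => φ x.1 (s x.1) x.2) fun x => φ' x.1 x.2
  let j : ∀ i, G i ⊕ G (i + 1) ⊕ G' i → (Σ k, G k) ⊕ (Σ k, G' k) := fun i =>
    Sum.elim (fun g => .inl ⟨i, g⟩) (Sum.elim (fun g => .inl ⟨i + 1, g⟩) fun g => .inr ⟨i, g⟩)
  have hj : ∀ i x, φg (j i x) =
      Sum.elim (φ i (s i)) (Sum.elim (φ (i + 1) (s (i + 1))) (φ' i)) x := by
    rintro i (g | g | g) <;> rfl
  have pi2 : π / 2 < 2 := by linarith [pi_lt_four]
  have nf : ∀ {x : ℝ}, x = -2 → ¬|x| ≤ π / 2 := fun h h' => by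
    rw [h, abs_neg, abs_two] at h'
    linarith
  have lo : ∀ {i p}, 0 ≤ ψ' i p → -Z < t i p := fun {i p} h => lt_of_not_ge fun h' => by
    linarith [show ψ' i p = -2 from (o i).dn p h']
  have hi : ∀ {i p}, ψ' i p ≤ 1 → t i p < Z := fun {i p} h => lt_of_not_ge fun h' => by
    linarith [show ψ' i p = 2 from (o i).up p h']
  refine glue X (n - 2) C _ φg ψ' (fun i k p => if h : ∃ x, j i x = k then Φ i h.choose p else φg k p)
    ?_ (fun i => (o i).cψ) ?_ (fun p => ?_) (fun p => ?_) ?_ (fun i k p h h' => ?_)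
    (fun i p S h hS => ?_) (fun i k => ?_) fun i p h h' => ⟨fun k => ?_, fun S hS => ?_⟩
  · rintro (⟨k, g⟩ | ⟨k, g⟩)
    exacts [((o k).sφ g).continuous, (pc k).cont g]
  · refine locFin (Sum.elim Sigma.fst Sigma.fst) (fun k => ?_) ρs.continuous P0 ?_
    · refine (((fin_fst G k).image Sum.inl).union ((fin_fst G' k).image Sum.inr)).subset ?_
      rintro (x | x) hx
      exacts [.inl ⟨x, hx, rfl⟩, .inr ⟨x, hx, rfl⟩]
    · rintro (⟨k, g⟩ | ⟨k, g⟩) p hp <;> rw [mem_ofPred_eq] at hp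
      · have h3 : |t k p| < H + W - 1 := lt_of_not_ge fun h => by
          linarith [show φg (.inl ⟨k, g⟩) p = -2 from (o k).far g p h]
        have h4 := neg_abs_le (t k p)
        rw [ht] at h3 h4
        exact show (2 * (k : ℝ) - 1) * P ≤ _ by linarith
      · have h3 : |t k p - P| < W + W' + 2 := lt_of_not_ge fun h => by
          linarith [show φg (.inr ⟨k, g⟩) p = -2 from (pc k).far g p h]
        have h4 := neg_abs_le (t k p - P)
        rw [ht] at h3 h4
        exact show (2 * (k : ℝ) - 1) * P ≤ _ by linarith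
  · obtain ⟨k, k1, k2⟩ : ∃ k, 0 ≤ t k p ∧ t k p ≤ 2 * P := by
      have h3 : 0 ≤ (1 / 2 * ρ p + P) / (2 * P) := by have := (ρ2 p).1; positivity
      have h4 := Nat.floor_le h3
      have h5 := (Nat.lt_floor_add_one ((1 / 2 * ρ p + P) / (2 * P))).le
      rw [le_div_iff₀ (by positivity)] at h4
      rw [div_le_iff₀ (by positivity)] at h5
      exact ⟨⌊(1 / 2 * ρ p + P) / (2 * P)⌋₊, by rw [ht]; linarith, by rw [ht]; linarith⟩
    by_cases h : t k p ≤ H - 1
    · obtain ⟨g, hg⟩ := (o k).face p (abs_le.2 ⟨by linarith, h⟩)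
      exact ⟨.inl ⟨k, g⟩, hg⟩
    by_cases h' : -(H - 1) ≤ t (k + 1) p
    · obtain ⟨g, hg⟩ := (o (k + 1)).face p (abs_le.2 ⟨h', by linarith [t4 k p]⟩)
      exact ⟨.inl ⟨k + 1, g⟩, hg⟩
    · obtain ⟨g, hg⟩ := (pc k).face p
        (abs_le.2 ⟨by linarith [not_le.1 h], by linarith [not_le.1 h', t4 k p]⟩)
      exact ⟨.inr ⟨k, g⟩, hg⟩
  · rw [show ψ' 0 p = 2 from (o 0).up p (by rw [ht]; simp only [Nat.cast_zero]; linarith [(ρ2 p).1])]
    norm_num
  · refine locFin id (fun k => finite_singleton k) ρs.continuous P0 fun k p hp => ?_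
    have h3 := lo hp
    rw [ht] at h3
    exact show (2 * (k : ℝ) - 1) * P ≤ _ by linarith
  · rw [show ψ' i p = 2 from (o i).up p (by linarith [lo h', t5 p h])]
    norm_num
  · have h3 : -Z < t i p := lt_of_not_ge fun h' => by
      linarith [show ψ' i p = -2 from (o i).dn p h', neg_abs_le (ψ' i p)]
    have h4 := hi ((le_abs_self _).trans h)
    refine few_ext ((o i).few p h) (fun g => Sum.inl ⟨i, g⟩) S ?_
    rintro (⟨k, g⟩ | ⟨k, g⟩) hk
    · rcases lt_trichotomy k i with h5 | rfl | h5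
      · exact absurd (hS _ hk) (nf ((o k).far g p (by linarith [t5 p h5, le_abs_self (t k p)])))
      · exact ⟨g, rfl, hS _ hk⟩
      · exact absurd (hS _ hk) (nf ((o k).far g p (by linarith [t5 p h5, neg_abs_le (t k p)])))
    · refine absurd (hS _ hk) (nf ((pc k).far g p ?_))
      rcases lt_or_ge k i with h5 | h5
      · linarith [t5 p h5, le_abs_self (t k p - P)]
      · linarith [t6 p h5, neg_abs_le (t k p - P)]
  · by_cases h : ∃ x, j i x = k
    · simpa only [dif_pos h] using (pc i).cΦ _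
    · simp only [dif_neg h]
      rcases k with ⟨k, g⟩ | ⟨k, g⟩
      exacts [((o k).sφ g).continuous.continuousOn, ((pc k).cont g).continuousOn]
  · by_cases h3 : ∃ x, j i x = k
    · have := (pc i).shr h3.choose p h h'
      rw [← hj, h3.choose_spec] at this
      simpa only [dif_pos h3] using this
    · simpa only [dif_neg h3] using Shr1.refl _
  · have h3 := lo h
    have h4 : t (i + 1) p < Z := hi (h'.trans zero_le_one)
    refine few_ext ((pc i).few p h h') (j i) S fun k hk => ?_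
    have h5 := hS k hk
    by_cases h6 : ∃ x, j i x = k
    · exact ⟨_, h6.choose_spec, by simpa only [dif_pos h6] using h5⟩
    simp only [dif_neg h6] at h5
    refine absurd h5 (nf ?_)
    rcases k with ⟨k, g⟩ | ⟨k, g⟩
    · rcases lt_trichotomy k i with h7 | rfl | h7
      · exact (o k).far g p (by linarith [t5 p h7, le_abs_self (t k p)])
      · exact absurd ⟨.inl g, rfl⟩ h6
      · rcases (Nat.succ_le_of_lt h7).eq_or_lt with rfl | h8
        · exact absurd ⟨.inr (.inl g), rfl⟩ h6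
        · exact (o k).far g p (by linarith [t5 p h8, neg_abs_le (t k p)])
    · rcases lt_trichotomy k i with h7 | rfl | h7
      · exact (pc k).far g p (by linarith [t5 p h7, le_abs_self (t k p - P)])
      · exact absurd ⟨.inr (.inr g), rfl⟩ h6
      · exact (pc k).far g p
          (by linarith [t6 p (Nat.succ_le_of_lt h7), neg_abs_le (t k p - P)])

end Crest.Agent.N228.T

end
end

-- ▼ part N228/T/FEnd2

/-! # Row 228, the top layer (helper92): `FEndStmt` -/

set_option autoImplicit false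
open Set Filter Topology Function

namespace Crest.Agent.N228.T
open Crest.Agent.N222
open Crest.Agent.N228.G (Few Shr Shr1 ev gr)

theorem fend' : FEndStmt := by
  intro hC n hG D s hs
  obtain ⟨η, hη, H⟩ := hG D (s / 2) (half_pos hs)
  refine ⟨η, hη, fun ι _ _ X _ _ _ _ _ M V C _ φ A hM hφ hD hA hc hb => ?_⟩
  obtain ⟨ι', _, _, Y, _, _, _, _, _, N, _, hN, e, L, c, F, hAe, hx, hF, hV⟩ :=
    hC n ι X M hM.inj V A (s / 2) hM.cont hM.form hA (half_pos hs)
  have he : Emb M N e := ⟨L, c, hx⟩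
  choose ψ hψ h1 using fun b => he.push_near hA hAe (hφ b)
  have e1 : ∀ p ∈ A, ev ψ (e p) = ev φ p := fun p hp =>
    funext fun b => (h1 b p hp).self_of_nhds.symm
  obtain ⟨ψ', c1, c2, c3⟩ := H ι' Y N F C ψ (e '' A) hN hF hψ hD
    (hA.image_of_continuousOn (e.continuousOn.mono hAe)).isClosed
    (by
      rintro _ ⟨p, hp, rfl⟩
      have e2 : gr N ψ (e p) = gr M φ p :=
        funext fun b => (he.norm_grad (hAe hp) (h1 b p hp)).symm
      rw [Cls, e1 p hp, e2]
      exact G.Good.monoV (hc p hp) (by linarith [hV p (hAe hp)]))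
    (by
      rintro _ ⟨p, hp, rfl⟩ h
      rw [e1 p hp]
      exact hb p hp fun h' => h (mem_interior_iff_mem_nhds.2
        (e.image_mem_nhds (hAe hp) (mem_interior_iff_mem_nhds.1 h'))))
  refine ⟨fun b p => ψ' b (e p), fun b => (c1 b).comp_continuousOn (e.continuousOn.mono hAe),
    fun b p hp => ?_, fun p hp => c3 _ (mem_image_of_mem e hp)⟩
  rw [(h1 b p hp).self_of_nhds]
  exact c2 b (e p)

end Crest.Agent.N228.T
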